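import Vale.Agent.P022K.FA.St

/-!
# P022K, block FA: meromorphic functions on a disc as a normed differential field (FA2 from FA1)
-/

set_option autoImplicit false

open Vale.Agent.P019P P025H746 PowerSeries
open scoped LaurentSeries

noncomputable section

namespace Vale.Agent.P022K.FA

open FI

section

variable {C : Type} [Field C]

/-- the derivative of Laurent series -/
abbrev dL (x : C⸨X⸩) : C⸨X⸩ := LaurentSeries.derivative C x

theorem dL_am (p : C⟦X⟧) : dL (am C p) = am C (d⁄dX C p) := by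
  ext k
  rw [dL, LaurentSeries.derivative_apply, LaurentSeries.hasseDeriv_coeff]
  rcases lt_trichotomy k (-1) with hk | rfl | hk
  · rw [coeff_am_neg _ (by omega), coeff_am_neg _ (by omega), smul_zero]
  · rw [coeff_am_neg (d⁄dX C p) (by omega)]
    simp
  · lift k to ℕ using by omega
    rw [← Nat.cast_add, coeff_am, coeff_am, coeff_derivative]
    simp [mul_comm]

theorem dL_single (n : ℤ) (x : C⸨X⸩) : dL (HahnSeries.single n 1 * x) =
    HahnSeries.single n 1 * dL x + (n : C) • (HahnSeries.single (n - 1) 1 * x) := by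
  ext k
  simp only [LaurentSeries.derivative_apply, LaurentSeries.hasseDeriv_coeff,
    HahnSeries.coeff_add, HahnSeries.coeff_single_mul, HahnSeries.coeff_smul,
    Ring.choose_one_right, one_mul]
  rw [show k - n + (1 : ℕ) = k + (1 : ℕ) - n by ring, show k - (n - 1) = k + (1 : ℕ) - n by
    push_cast; ring, Int.cast_smul_eq_zsmul, ← add_smul]
  congr 1
  ring

theorem dL_mul (x y : C⸨X⸩) : dL (x * y) = x * dL y + y * dL x := by
  rw [← x.single_order_mul_powerSeriesPart, ← y.single_order_mul_powerSeriesPart]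
  generalize x.order = n
  generalize y.order = m
  generalize x.powerSeriesPart = p
  generalize y.powerSeriesPart = q
  have s : ∀ a b : ℤ, (HahnSeries.single (a + b) 1 : C⸨X⸩) =
      HahnSeries.single a 1 * HahnSeries.single b 1 := fun a b => by
    rw [HahnSeries.single_mul_single, one_mul]
  change dL (_ * am C p * (_ * am C q)) = _ * am C p * dL (_ * am C q) + _ * am C q * dL (_ * am C p)
  rw [mul_mul_mul_comm, ← s, ← map_mul, dL_single, dL_single, dL_single, dL_am, dL_am, dL_am,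
    Derivation.leibniz, sub_eq_add_neg, sub_eq_add_neg, sub_eq_add_neg, s, s, s, s]
  simp only [smul_eq_mul, map_add, map_mul, ← HahnSeries.C_mul_eq_smul, Int.cast_add]
  rw [s]
  ring

theorem dL_div (a : C⟦X⟧) {b : C⟦X⟧} (h : b ≠ 0) : dL (am C a / am C b) =
    am C (d⁄dX C a) / am C b - am C a / am C b * (am C (d⁄dX C b) / am C b) := by
  have := dL_mul (am C a / am C b) (am C b)
  have b0 := am_ne h
  rw [div_mul_cancel₀ _ b0, dL_am, dL_am] at this
  rw [this]
  field_simp
  ring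

end

variable {C : Type} [NontriviallyNormedField C] [IsUltrametricDist C] {r : ℝ}

theorem am_div_mem {a b : C⟦X⟧} (ha : Cv r a) (hb : Cv r b) : am C a / am C b ∈ MM C r :=
  div_mem ha.mem hb.mem

theorem dL_mem (hr : 0 < r) {x : C⸨X⸩} (hx : x ∈ MM C r) : dL x ∈ MM C r := by
  obtain ⟨a, b, ha, hb, b0, rfl⟩ := hx
  rw [dL_div a b0]
  exact sub_mem (am_div_mem (ha.deriv hr) hb)
    (mul_mem (am_div_mem ha hb) (am_div_mem (hb.deriv hr) hb))

variable (C) in
/-- the derivative of meromorphic functions -/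
def dM (hr : 0 < r) : Derivation C (MM C r) (MM C r) := Derivation.mk'
  { toFun := fun x => ⟨dL x, dL_mem hr x.2⟩
    map_add' := fun x y => Subtype.ext (map_add (LaurentSeries.derivative C) x.1 y.1)
    map_smul' := fun c x => Subtype.ext (by
      change dL ((c • x : MM C r) : C⸨X⸩) = ((c • _ : MM C r) : C⸨X⸩)
      rw [Algebra.smul_def, Algebra.smul_def]
      change dL (am C (PowerSeries.C c) * x.1) = am C (PowerSeries.C c) * dL x.1
      rw [dL_mul, dL_am, derivative_C, map_zero, mul_zero, add_zero]) }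
  fun x y => Subtype.ext (dL_mul x.1 y.1)

theorem dM_le (hr : 0 < r) (y : MM C r) : nv C hr (dM C hr y) ≤ r⁻¹ * nv C hr y := by
  obtain ⟨_, a, b, ha, hb, b0, rfl⟩ := y
  have p := gn_pos hr hb b0
  have e : dM C hr ⟨_, a, b, ha, hb, b0, rfl⟩ = ⟨_, am_div_mem (ha.deriv hr) hb⟩ +
      -(⟨_, am_div_mem ha hb⟩ * ⟨_, am_div_mem (hb.deriv hr) hb⟩) :=
    Subtype.ext ((dL_div a b0).trans (sub_eq_add_neg _ _))
  rw [e]
  refine ((nv C hr).na _ _).trans (max_le ?_ ?_)
  · rw [nv_apply, nv_apply, nm_div hr (ha.deriv hr) hb, nm_div hr ha hb, ← mul_div_assoc,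
      inv_mul_eq_div]
    exact div_le_div_of_nonneg_right (gn_deriv hr ha) p.le
  · rw [(nv C hr).av.map_neg, map_mul, mul_comm]
    refine mul_le_mul_of_nonneg_right ?_ ((nv C hr).av.nonneg _)
    rw [nv_apply, nm_div hr (hb.deriv hr) hb, div_le_iff₀ p, inv_mul_eq_div]
    exact gn_deriv hr hb

theorem fa2 [IsAlgClosed C] [CharZero C] [CompleteSpace C] (h : FA1 C) : FA2 C :=
  fun p p0 p1 K ι _ _ _ _ r hr φ c hφ hm x θ hx hθ => by
  obtain ⟨F, _, _, j, v, d, ψ, a1, a2, a3, a4⟩ : ∃ (F : Type) (_ : Field F) (_ : Algebra C F)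
      (j : F →ₐ[C] C⸨X⸩) (v : NV C F) (d : Derivation C F F) (ψ : ι → K →ₐ[C] F),
      (∀ y, v (d y) ≤ r⁻¹ * v y) ∧ (∀ y, j (d y) = dL (j y)) ∧ (∀ i z, j (ψ i z) = φ i z) ∧
      ∀ y ∈ MM C r, ∃ z, j z = y :=
    ⟨MM C r, inferInstance, inferInstance, (MM C r).val, nv C hr, dM C hr,
      fun i => (φ i).codRestrict (MM C r).toSubalgebra (hφ i), dM_le hr, fun _ => rfl,
      fun _ _ => rfl, fun y hy => ⟨⟨y, hy⟩, rfl⟩⟩
  have := congrArg j (h p p0 p1 K F ι v d r⁻¹ a1 ψ c (fun m => by
    obtain ⟨n, a, b⟩ := hm m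
    refine ⟨n, a, fun g g0 o => ?_⟩
    obtain ⟨y, hy, e⟩ := b g g0 o
    obtain ⟨z, rfl⟩ := a4 y hy
    exact ⟨z, j.injective (show j _ = j _ by simpa only [map_prod, map_pow, map_zpow₀, a3] using e)⟩) x θ hx hθ)
  simpa only [map_sum, map_zero, Algebra.smul_def (A := F), map_mul, j.commutes,
    a2, a3, LaurentSeries.algebraMap_apply, HahnSeries.C_mul_eq_smul] using this

end Vale.Agent.P022K.FA
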