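import Vale.Agent.P022K.FA.St

/-!
# P022K, block FA: places and automorphisms of a base change
-/

set_option linter.all false

open Vale.Agent.P019P P025H746 P025H492 P025H816 P027M.K TensorProduct IntermediateField

noncomputable section

namespace Vale.Agent.P022K.FA

open P025H941 (can can_tmul)

variable {C K Ω K' : Type} [Field C] [Field K] [Field Ω] [Field K'] [Algebra C K]
  [Algebra C Ω] [Algebra C K'] [Algebra K K'] [Algebra Ω K'] [IsScalarTower C K K']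
  [IsScalarTower C Ω K'] [CFF C K] [CFF Ω K'] {φ φ' : K →ₐ[C] Ω} {Q Q' : Plk Ω K'}
  {P : Plk C K}

theorem Pt.unique (h : Pt φ Q) (h' : Pt φ' Q) : φ = φ' :=
  AlgHom.ext fun z => (h z).unique (h' z)

theorem Pt.ord (h : Pt φ Q) (z : K) : ord Q (algebraMap K K' z) = 0 := by
  by_cases hz : z = 0
  · rw [hz, map_zero, ord_zero]
  · exact ((h z).unit ((map_ne_zero φ).2 hz)).2

theorem Pt.vl (h : Pt φ Q) (z : K) : vl Q (algebraMap K K' z) = φ z := vl_eq (h z)

theorem Pt.not_cst (h : Pt φ Q) : ¬ Cst P Q := fun h' => by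
  obtain ⟨s, -, hs⟩ := exists_unif P
  have := h' s
  rw [h.ord, hs] at this
  exact zero_ne_one this

theorem Pt.dl_eq (h : Pt φ Q) (d : Derivation C Ω Ω) (θ x : K) :
    dl d θ x Q = φ θ * d (φ x) := by
  have h1 : ∃ φ : K →ₐ[C] Ω, Pt φ Q := ⟨φ, h⟩
  rw [dl, dif_pos h1, h1.choose_spec.unique h]

theorem Cst.dl_eq (h : Cst P Q) (d : Derivation C Ω Ω) (θ x : K) : dl d θ x Q = 0 :=
  dif_neg fun ⟨_, h'⟩ => h'.not_cst h

theorem Pt.sm (h : Pt φ Q) {s : Ω ≃ₐ[C] Ω} {t : K' ≃+* K'} (ht : Sm K s t) :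
    Pt ((s : Ω →ₐ[C] Ω).comp φ) (plEquiv t s.toRingEquiv ht.cst Q) := fun z => by
  have := Val.semi ht.cst (h z)
  rwa [ht.fix] at this

variable (h : P025H941.IsBC C K Ω K')
include h

theorem bc_symm : P025H941.IsBC C Ω K K' := by
  have e : ∀ z, can C Ω K K' (Algebra.TensorProduct.comm C K Ω z) = can C K Ω K' z := fun z => by
    induction z using TensorProduct.induction_on with
    | zero => rw [map_zero, map_zero, map_zero]
    | tmul x c => rw [Algebra.TensorProduct.comm_tmul, can_tmul, can_tmul, mul_comm]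
    | add x y hx hy => rw [map_add, map_add, map_add, hx, hy]
  refine P025H941.isBC_of_inj (fun a b hab => ?_) fun z => ?_
  · obtain ⟨a, rfl⟩ := (Algebra.TensorProduct.comm C K Ω).surjective a
    obtain ⟨b, rfl⟩ := (Algebra.TensorProduct.comm C K Ω).surjective b
    rw [e, e] at hab
    rw [h.inj hab]
  · obtain ⟨a, b, hb, e1⟩ := h.exists_nd C K Ω K' z
    exact ⟨Algebra.TensorProduct.comm C K Ω a, _, (e b).symm ▸ hb, by rw [e, e, e1]⟩

theorem exists_sm (s : Ω ≃ₐ[C] Ω) : ∃ t : K' ≃+* K', Sm K s t := by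
  have : IsAlgClosed C := CFF.ac K
  have : IsDomain (K ⊗[C] Ω) := Vale.Agent.P276.H270.isDomain_tensor
  letI : Algebra (K ⊗[C] Ω) K' := (can C K Ω K').toRingHom.toAlgebra
  have : FaithfulSMul (K ⊗[C] Ω) K' := (faithfulSMul_iff_algebraMap_injective _ _).2 h.inj
  have : IsFractionRing (K ⊗[C] Ω) K' := IsFractionRing.of_field _ _ fun z =>
    (h.exists_nd C K Ω K' z).imp fun a => Exists.imp fun b hb => hb.2
  let e := (Algebra.TensorProduct.congr (AlgEquiv.refl : K ≃ₐ[C] K) s).toRingEquiv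
  have h1 : ∀ x c, IsFractionRing.ringEquivOfRingEquiv (K := K') (L := K') e
      (algebraMap K K' x * algebraMap Ω K' c) = algebraMap K K' x * algebraMap Ω K' (s c) :=
    fun x c => by
      rw [← can_tmul (C := C), ← can_tmul (C := C)]
      exact IsFractionRing.ringEquivOfRingEquiv_algebraMap e (x ⊗ₜ c)
  refine ⟨IsFractionRing.ringEquivOfRingEquiv (K := K') (L := K') e, fun z => ?_, fun c => ?_⟩
  · simpa only [map_one, mul_one] using h1 z 1
  · have := h1 1 c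
    rwa [map_one, one_mul, one_mul] at this

theorem exists_pt (φ : K →ₐ[C] Ω) : ∃ Q : Plk Ω K', Pt φ Q := by
  let e := AlgEquiv.ofInjective _ h.inj
  let ev : (can C K Ω K').range →+* Ω :=
    (Algebra.TensorProduct.productMap φ (AlgHom.id C Ω)).toRingHom.comp e.symm.toRingEquiv.toRingHom
  obtain ⟨B, h1, h2⟩ := Ideal.image_subset_nonunits_valuationSubring
    (A := (can C K Ω K').range.toSubring) (RingHom.ker ev) (RingHom.ker_ne_top ev)
  have h3 : ∀ z, algebraMap K K' z - algebraMap Ω K' (φ z) ∈ B.nonunits := fun z => by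
    refine h2 ⟨e (z ⊗ₜ 1 - 1 ⊗ₜ φ z), ?_, ?_⟩
    · change Algebra.TensorProduct.productMap φ (AlgHom.id C Ω) (e.symm (e _)) = 0
      rw [e.symm_apply_apply]
      simp
    · change can C K Ω K' (z ⊗ₜ 1 - 1 ⊗ₜ φ z) = _
      rw [map_sub, can_tmul, can_tmul, map_one, map_one, mul_one, one_mul]
  obtain ⟨x, hx, -⟩ := CFF.ex (k := C) (F := K)
  have h4 := sub_ne_zero.2
    (h.to816.nc_up (x := x) (fun a e => hx (e ▸ isAlgebraic_algebraMap a)) (φ x))
  obtain ⟨Q, rfl⟩ : ∃ Q : Plk Ω K', Q.1 = B := by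
    refine ⟨⟨B, fun c => h1 ⟨1 ⊗ₜ c, ?_⟩, fun e => ?_⟩, rfl⟩
    · change can C K Ω K' _ = _
      rw [can_tmul, map_one, one_mul]
    · exact (B.mem_nonunits_iff_or.1 (h3 x)).resolve_left h4 (e ▸ ValuationSubring.mem_top _)
  refine ⟨Q, fun z => mem_Mge.2 ((Q.1.mem_nonunits_iff_or.1 (h3 z)).imp_right fun h5 => ?_)⟩
  by_contra h6
  exact h5 ((mem_iff_ord Q _).2 (Or.inr (by rw [ord_inv]; omega)))

theorem exists_cst (P : Plk C K) : ∃ Q : Plk Ω K', Cst P Q :=
  (h.to816.exists_unique_above P).imp fun _ h => h.2.1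

theorem Cst.unique (h1 : Cst P Q) (h2 : Cst P Q') : Q = Q' := by
  obtain ⟨P', -, -, h3⟩ := h.to816.exists_unique_above P
  obtain ⟨s, s0, hs⟩ := exists_unif P
  have h4 : ∀ Q : Plk Ω K', Cst P Q → Q = P' := fun Q hQ => h3 Q (fun z hz => by
    rw [mem_iff_ord] at hz ⊢
    rw [hQ, map_eq_zero]
    exact hz) ⟨s, s0, by rw [hQ, hs]; exact one_ne_zero⟩
  rw [h4 Q h1, h4 Q' h2]

theorem pt_or_cst (Q : Plk Ω K') : (∃ φ : K →ₐ[C] Ω, Pt φ Q) ∨ ∃ P : Plk C K, Cst P Q := by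
  rcases restr h.to816.comm Q with h1 | ⟨P, e, he, h1, h2⟩
  · have h2 : ∀ z, Val Q (algebraMap K K' z) (vl Q (algebraMap K K' z)) := fun z =>
      val_vl (h1 z).ge
    refine Or.inl ⟨⟨⟨⟨⟨fun z => vl Q (algebraMap K K' z), ?_⟩, fun a b => ?_⟩, ?_,
      fun a b => ?_⟩, fun c => ?_⟩, h2⟩
    · exact (h2 1).unique (by rw [map_one]; exact Val.one Q)
    · exact (h2 _).unique (by rw [map_mul]; exact (h2 a).mul (h2 b))
    · exact (h2 0).unique (by rw [map_zero, Val.zero_iff]; exact zero_mem _)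
    · exact (h2 _).unique (by rw [map_add]; exact (h2 a).add (h2 b))
    · refine (h2 _).unique ?_
      rw [← IsScalarTower.algebraMap_apply, IsScalarTower.algebraMap_apply C Ω K']
      exact Val.const Q _
  · obtain ⟨P', -, h3, h4⟩ := h.to816.exists_unique_above P
    obtain ⟨s, s0, hs⟩ := exists_unif P
    refine Or.inr ⟨P, ?_⟩
    rw [h4 Q (fun z => (h1 z).1) ⟨s, s0, by rw [h2, hs]; omega⟩]
    exact h3

theorem Cst.sm (h1 : Cst P Q) {s : Ω ≃ₐ[C] Ω} {t : K' ≃+* K'} (ht : Sm K s t) :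
    plEquiv t s.toRingEquiv ht.cst Q = Q :=
  Cst.unique h (fun z => by rw [← h1 z, ← ord_plEquiv t _ ht.cst Q, ht.fix]) h1

theorem Pt.eq [CharZero C] (h1 : Pt φ Q) (h2 : Pt φ Q') : Q = Q' := by
  classical
  have : IsAlgClosed Ω := CFF.ac K'
  obtain ⟨x, hx, hf⟩ := CFF.ex (k := C) (F := K)
  have hx' := h.to816.nc_up (x := x) fun a e => hx (e ▸ isAlgebraic_algebraMap a)
  letI : Algebra C⟮x⟯ Ω := ((φ : K →+* Ω).comp (algebraMap C⟮x⟯ K)).toAlgebra
  have : IsScalarTower C C⟮x⟯ Ω := IsScalarTower.of_algebraMap_eq fun c => (φ.commutes c).symm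
  have : CharZero C⟮x⟯ := algebraRat.charZero _
  choose q hq using fun ψ : K →ₐ[C⟮x⟯] Ω => exists_pt h (ψ.restrictScalars C)
  have h3 : ∀ (ψ : K →ₐ[C] Ω) (R : Plk Ω K'), Pt ψ R → ψ x = φ x →
      R ∈ (fib_finite hx' (φ x)).toFinset := fun ψ R hR e => by
    rw [Set.Finite.mem_toFinset, ← e]
    exact (mem_Mge.1 (hR x)).resolve_left (sub_ne_zero.2 (hx' _))
  have h4 : Function.Injective q := fun ψ ψ' e =>
    AlgHom.restrictScalars_injective C ((hq ψ).unique (e ▸ hq ψ'))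
  have h5 : Finset.univ.image q = (fib_finite hx' (φ x)).toFinset := by
    refine Finset.eq_of_subset_of_card_le (fun R hR => ?_) ?_
    · obtain ⟨ψ, -, rfl⟩ := Finset.mem_image.1 hR
      exact h3 _ _ (hq ψ) (ψ.commutes (AdjoinSimple.gen C x))
    · rw [Finset.card_image_of_injective _ h4, Finset.card_univ, AlgHom.card,
        ← (h.to816.finrank_eq_and hx').1, ← Nat.cast_le (α := ℤ), ← fib_sum hx' (φ x),
        Finset.card_eq_sum_ones, Nat.cast_sum]
      refine Finset.sum_le_sum fun R hR => ?_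
      rw [Set.Finite.mem_toFinset] at hR
      exact hR
  obtain ⟨ψ, -, rfl⟩ := Finset.mem_image.1 (h5 ▸ h3 φ Q h1 rfl)
  obtain ⟨ψ', -, rfl⟩ := Finset.mem_image.1 (h5 ▸ h3 φ Q' h2 rfl)
  rw [AlgHom.restrictScalars_injective C (((hq ψ).unique h1).trans (h2.unique (hq ψ')))]

end Vale.Agent.P022K.FA
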