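import Vale.Agent.P022K.FA.St

/-!
# P022K, block FA: a bounded derivation is bounded on extensions of bounded degree (row DER)
-/

set_option autoImplicit false

open P025H746 Polynomial MulAction

noncomputable section

namespace Vale.Agent.P022K.FA

namespace De

variable {C L Γ : Type} [CommRing C] [Field L] [Algebra C L] [Group Γ] [MulSemiringAction Γ L]
  {v : AbsoluteValue L ℝ}

theorem le_sum {A ι : Type} [Ring A] {v : AbsoluteValue A ℝ} (hv : IsNonarchimedean v)
    {s : Finset ι} {f : ι → A} {c : ℝ} (hc : 0 ≤ c) (h : ∀ i ∈ s, v (f i) ≤ c) :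
    v (∑ i ∈ s, f i) ≤ c :=
  Finset.sum_induction f (v · ≤ c) (fun a b x y => (hv a b).trans (max_le x y)) (by simpa) h

theorem le_sub {A : Type} [Ring A] {v : AbsoluteValue A ℝ} (hv : IsNonarchimedean v) {a b : A}
    {c : ℝ} (x : v a ≤ c) (y : v b ≤ c) : v (a - b) ≤ c :=
  sub_eq_add_neg a b ▸ (hv _ _).trans (max_le x ((v.map_neg b).trans_le y))

theorem sum_orb {M : Type} [AddCommMonoid M] [DistribMulAction Γ M] {x : M}
    (h : (orbit Γ x).Finite) (g : Γ) : g • ∑ s ∈ h.toFinset, s = ∑ s ∈ h.toFinset, s := by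
  rw [Finset.smul_sum]
  exact Finset.sum_equiv (toPerm g) (fun s => by simp [← orbit_eq_iff]) fun _ _ => rfl

theorem chain (d : Derivation C L L) (W : L[X]) (y : L) :
    d (W.eval y) = W.sum (fun i c => d c * y ^ i) + W.derivative.eval y * d y := by
  induction W using Polynomial.induction_on' with
  | add p q hp hq =>
    rw [sum_add_index _ _ _ (by simp) (by simp [add_mul]), eval_add, map_add, hp, hq, map_add,
      eval_add]
    ring
  | monomial n a =>
    rw [sum_monomial_index _ _ (by simp)]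
    simp [derivative_monomial]
    ring

theorem step (hv : IsNonarchimedean v) (iso : ∀ (g : Γ) y, v (g • y) = v y)
    (d : Derivation C L L) {ρ : ℝ} (bd : ∀ y, (∀ g : Γ, g • y = y) → v (d y) ≤ ρ * v y) {y : L}
    (fin : (orbit Γ y).Finite) {n : ℕ} (hn : fin.toFinset.card ≤ n) {Δ θ : ℝ} (Δ0 : 0 < Δ)
    (θ1 : 1 ≤ θ) (le : ∀ g : Γ, v (g • y - y) ≤ Δ) (sz : v y ≤ θ * Δ) {K : Subgroup Γ}
    [K.FiniteIndex] (hK : ∀ g, g ∈ K ↔ v (g • y - y) < Δ) {w : L} (hw : ∀ g ∈ K, g • w = w) :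
    v (d w) ≤ θ ^ (n * n * 3) * ρ * v w := by
  classical
  have R0 : 0 < θ * Δ := by positivity
  have ρ0 : 0 ≤ ρ := by simpa using bd 1 fun g => smul_one g
  have := gaussNorm_isAbsoluteValue hv R0
  obtain ⟨N, na, NC, NX, cN, Ng⟩ : ∃ N : AbsoluteValue L[X] ℝ, IsNonarchimedean N ∧
      (∀ a, N (Polynomial.C a) = v a) ∧ N X = θ * Δ ∧
      (∀ (p : L[X]) i, v (p.coeff i) * (θ * Δ) ^ i ≤ N p) ∧ ∀ (g : Γ) p, N (g • p) ≤ N p :=
    ⟨IsAbsoluteValue.toAbsoluteValue (gaussNorm v (θ * Δ)), isNonarchimedean_gaussNorm v hv R0.le,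
      gaussNorm_C v _, (gaussNorm_monomial v _ 1 1).trans (by simp),
      fun p => le_gaussNorm v p R0.le, fun g p => by
        obtain ⟨i, e⟩ := exists_eq_gaussNorm v (θ * Δ) (g • p)
        rw [coeff_smul, iso] at e
        exact e.trans_le (le_gaussNorm v p R0.le i)⟩
  obtain ⟨B, hB⟩ : ∃ B, B = fin.toFinset.filter fun s => v (s - y) < Δ := ⟨_, rfl⟩
  obtain ⟨O, hO⟩ : ∃ O, O = fin.toFinset.filter fun s => ¬v (s - y) < Δ := ⟨_, rfl⟩
  have mv : ∀ g ∈ K, ∀ s, v (g • s - y) < Δ ↔ v (s - y) < Δ := by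
    have : ∀ g ∈ K, ∀ s, v (s - y) < Δ → v (g • s - y) < Δ := fun g k s a => by
      rw [← sub_add_sub_cancel _ (g • y), ← smul_sub]
      exact (hv _ _).trans_lt (max_lt ((iso _ _).trans_lt a) ((hK g).1 k))
    exact fun g k s => ⟨fun a => by simpa using this _ (K.inv_mem k) _ a, this g k s⟩
  have pB : ∀ g ∈ K, ∀ s, s ∈ B ↔ toPerm g s ∈ B := fun g k s => by
    simp [hB, ← orbit_eq_iff, mv g k]
  have pO : ∀ g ∈ K, ∀ s, s ∈ O ↔ toPerm g s ∈ O := fun g k s => by
    simp only [hO, Finset.mem_filter, toPerm_apply, mv g k]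
    simp [← orbit_eq_iff]
  obtain ⟨h, hh⟩ : ∃ h, h = ∏ s ∈ O, (X - Polynomial.C s) := ⟨_, rfl⟩
  have gh : ∀ g ∈ K, g • h = h := fun g k => by
    rw [hh, Finset.smul_prod']
    exact Finset.prod_equiv (toPerm g) (pO g k) fun s _ => by simp [smul_sub, smul_C]
  have vh : ∀ s ∈ B, v (h.eval s) = Δ ^ O.card := fun s a => by
    rw [hh, eval_prod, map_prod, ← Finset.prod_const]
    refine Finset.prod_congr rfl fun t b => ?_
    rw [hB, Finset.mem_filter] at a
    rw [hO, Finset.mem_filter] at b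
    obtain ⟨g, rfl⟩ := fin.mem_toFinset.1 b.1
    rw [eval_sub, eval_X, eval_C]
    refine le_antisymm ?_ (not_lt.1 fun c => b.2 ?_)
    · rw [← sub_sub_sub_cancel_right _ _ y]
      exact le_sub hv a.2.le (le g)
    · rw [← sub_add_sub_cancel _ s]
      exact (hv _ _).trans_lt (max_lt (by rwa [v.map_sub]) a.2)
  have Nh : N h ≤ (θ * Δ) ^ O.card := by
    rw [hh, map_prod, ← Finset.prod_const]
    refine Finset.prod_le_prod (fun _ _ => N.nonneg _) fun t b => le_sub na NX.le ?_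
    rw [hO, Finset.mem_filter] at b
    obtain ⟨g, rfl⟩ := fin.mem_toFinset.1 b.1
    exact (NC _).trans_le ((iso _ _).trans_le sz)
  obtain ⟨e, he⟩ : ∃ e, e = 1 - ∏ s ∈ B, (1 - h * Polynomial.C (h.eval s)⁻¹) := ⟨_, rfl⟩
  have ge : ∀ g ∈ K, g • e = e := fun g k => by
    rw [he, smul_sub, smul_one, Finset.smul_prod']
    refine congrArg _ (Finset.prod_equiv (toPerm g) (pB g k) fun s _ => ?_)
    rw [smul_sub, smul_one, smul_mul', smul_C, smul_inv'', ← smul_eval_smul, gh g k, toPerm_apply]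
  have e1 : ∀ g ∈ K, e.eval (g • y) = 1 := fun g k => by
    have a : g • y ∈ B := by simpa [hB] using (hK g).1 k
    have b : h.eval (g • y) ≠ 0 := fun z => (pow_pos Δ0 _).ne
      (((congrArg v z).trans (map_zero v)).symm.trans (vh _ a))
    rw [he, eval_sub, eval_prod, Finset.prod_eq_zero a (by simp [b]), sub_zero, eval_one]
  have e0 : ∀ g ∉ K, e.eval (g • y) = 0 := fun g k => by
    have a : g • y ∈ O := by simpa [hO, hK] using k
    have b : h.eval (g • y) = 0 := by rw [hh, eval_prod, Finset.prod_eq_zero a (by simp)]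
    simp [he, eval_prod, b]
  have Ne : N e ≤ θ ^ (n * n) := by
    have cB : B.card ≤ n := hB ▸ (Finset.card_filter_le _ _).trans hn
    have cO : O.card ≤ n := hO ▸ (Finset.card_filter_le _ _).trans hn
    rw [he]
    refine le_sub na (N.map_one.trans_le (one_le_pow₀ θ1)) ?_
    rw [map_prod, pow_mul]
    refine (Finset.prod_le_prod (fun _ _ => N.nonneg _) fun s a => le_sub na
      (N.map_one.trans_le (one_le_pow₀ θ1 (n := n))) ?_).trans ((Finset.prod_const _).trans_le
        (pow_le_pow_right₀ (one_le_pow₀ θ1) cB))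
    rw [map_mul, NC, map_inv₀, vh s a, mul_inv_le_iff₀ (pow_pos Δ0 _)]
    exact Nh.trans ((mul_pow _ _ _).trans_le (by gcongr))
  obtain ⟨F, hF⟩ : ∃ F, F = Polynomial.C w * (e * e * (3 - 2 * e)) := ⟨_, rfl⟩
  have gF : K ≤ stabilizer Γ F := fun g k => by
    have : ∀ m : ℕ, g • (m : L[X]) = m := fun m => map_natCast (MulSemiringAction.toRingHom _ _ g) m
    rw [mem_stabilizer_iff, hF, smul_mul', smul_mul', smul_mul', smul_sub, smul_mul', ge g k, smul_C,
      hw g k, show g • (3 : L[X]) = 3 from this 3, show g • (2 : L[X]) = 2 from this 2]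
  have NF : N F ≤ θ ^ (n * n * 3) * v w := by
    have a : ∀ m : ℕ, N m ≤ 1 := fun m => na.apply_natCast_le_one
    have b : N (3 - 2 * e) ≤ θ ^ (n * n) := le_sub na ((a 3).trans (one_le_pow₀ θ1))
      ((map_mul N _ _).trans_le ((mul_le_of_le_one_left (N.nonneg _) (a 2)).trans Ne))
    rw [hF, map_mul, map_mul, map_mul, NC, mul_comm, pow_mul _ _ 3, pow_three']
    gcongr
  have fF : (orbit Γ F).Finite := by
    have := Subgroup.finiteIndex_of_le gF
    exact Set.finite_of_ncard_ne_zero (index_stabilizer Γ F ▸ Subgroup.FiniteIndex.index_ne_zero)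
  have W1 : (∑ s ∈ fF.toFinset, s).eval y = w := by
    rw [eval_finsetSum, Finset.sum_eq_single_of_mem F (by simp) fun s a b => ?_]
    · simpa [hF, show e.eval y = 1 by simpa using e1 1 K.one_mem] using by norm_num
    obtain ⟨g, rfl⟩ := fF.mem_toFinset.1 a
    simp [smul_eval, hF, e0 g⁻¹ fun k => b (gF (K.inv_mem_iff.1 k))]
  have W2 : (∑ s ∈ fF.toFinset, s).derivative.eval y = 0 := by
    rw [map_sum, eval_finsetSum]
    refine Finset.sum_eq_zero fun s a => ?_
    obtain ⟨g, rfl⟩ := fF.mem_toFinset.1 a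
    have : derivative (g • F) = g • derivative F := by simp only [smul_eq_map, derivative_map]
    rw [this, smul_eval, smul_eq_zero_iff_eq]
    by_cases k : g⁻¹ ∈ K
    · simp [hF, e1 _ k]
      ring_nf
      simp
    · simp [hF, e0 _ k]
  rw [← W1, chain, W2, zero_mul, add_zero, W1]
  refine le_sum hv (by positivity) fun i _ => ?_
  have a := bd _ fun g => (coeff_smul g _ i).symm.trans (congrArg (coeff · i) (sum_orb fF g))
  have b := (cN (∑ s ∈ fF.toFinset, s) i).trans (le_sum (c := θ ^ (n * n * 3) * v w) na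
    (by positivity) fun s a => by
    obtain ⟨g, rfl⟩ := fF.mem_toFinset.1 a
    exact (Ng g F).trans NF)
  rw [map_mul, map_pow, mul_right_comm, mul_comm _ ρ]
  refine le_trans ?_ (mul_le_mul_of_nonneg_left b ρ0)
  rw [← mul_assoc]
  gcongr

end De

open De in
theorem der (C : Type) [NontriviallyNormedField C] [IsUltrametricDist C] [IsAlgClosed C]
    [CharZero C] : DER C := fun n => by
  suffices ∃ c : ℝ, 1 ≤ c ∧ _ from this.imp fun c a => ⟨one_pos.trans_le a.1, a.2⟩
  induction n with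
  | zero => exact ⟨1, le_rfl, fun _ _ _ _ _ _ _ _ _ _ a b => (a (Nat.le_zero.1 b)).elim⟩
  | succ n ih =>
  obtain ⟨c, c1, ih⟩ := ih
  have f0 : 0 < ‖(((n + 1).factorial : ℕ) : C)‖ :=
    norm_pos_iff.2 (Nat.cast_ne_zero.2 (Nat.factorial_ne_zero _))
  have θ1 : 1 ≤ ‖(((n + 1).factorial : ℕ) : C)‖⁻¹ :=
    (one_le_inv₀ f0).2 (IsUltrametricDist.norm_natCast_le_one C _)
  refine ⟨c * _, one_le_mul_of_one_le_of_one_le c1 (one_le_pow₀ θ1 (n := (n + 1) * (n + 1) * 3)),
    fun L _ _ v d G ρ b H hH h0 hn => ⟨fun s k => b.iso s (hH k), fun s k => b.com s (hH k),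
      fun y hy => ?_⟩⟩
  have ρ0 : 0 ≤ ρ := by simpa using b.bd 1 fun g _ => map_one g
  by_cases z : ∀ s ∈ G, s y = y
  · exact (b.bd y z).trans (mul_le_mul_of_nonneg_right (le_mul_of_one_le_left ρ0
      (one_le_mul_of_one_le_of_one_le c1 (one_le_pow₀ θ1))) (v.av.nonneg _))
  have st : H.subgroupOf G ≤ stabilizer G y := fun g k => hy _ k
  have ix := Subgroup.index_dvd_of_le st
  rw [index_stabilizer] at ix
  have fin : (orbit G y).Finite := Set.finite_of_ncard_ne_zero (ne_zero_of_dvd_ne_zero h0 ix)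
  have cd : fin.toFinset.card ≤ n + 1 := (Set.ncard_eq_toFinset_card _ fin).ge.trans
    ((Nat.le_of_dvd (Nat.pos_of_ne_zero h0) ix).trans hn)
  have ne : fin.toFinset.Nonempty := ⟨y, by simp⟩
  obtain ⟨s, hs, mx⟩ := fin.toFinset.exists_max_image (fun s => v (s - y)) ne
  obtain ⟨g₀, rfl⟩ := fin.mem_toFinset.1 hs
  have le : ∀ g : G, v (g • y - y) ≤ v (g₀ • y - y) := fun g => mx _ (by simp)
  have Δ0 : 0 < v (g₀ • y - y) := lt_of_not_ge fun k => z fun s a =>
    sub_eq_zero.1 (v.av.eq_zero.1 (le_antisymm ((le ⟨s, a⟩).trans k) (v.av.nonneg _)))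
  let K : Subgroup (L ≃ₐ[C] L) :=
    { carrier := {g | g ∈ G ∧ v (g y - y) < v (g₀ • y - y)}
      one_mem' := ⟨G.one_mem, by simpa using Δ0⟩
      mul_mem' := fun {g g'} p q => ⟨G.mul_mem p.1 q.1, by
        rw [AlgEquiv.mul_apply, ← sub_add_sub_cancel _ (g y), ← map_sub]
        exact (v.na _ _).trans_lt (max_lt ((b.iso g p.1 _).trans_lt q.2) p.2)⟩
      inv_mem' := fun {g} p => ⟨G.inv_mem p.1, by
        rw [← b.iso g p.1, map_sub, ← AlgEquiv.mul_apply, mul_inv_cancel, v.av.map_sub]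
        exact p.2⟩ }
  have KG : K ≤ G := fun g k => k.1
  have HK : H ≤ K := fun g k => ⟨hH k, by simpa [hy g k] using Δ0⟩
  have mul := Subgroup.relIndex_mul_relIndex H K G HK KG
  have k0 : K.relIndex G ≠ 0 := right_ne_zero_of_mul (mul ▸ h0)
  have k1 : K.relIndex G ≠ 1 := fun e => (Subgroup.relIndex_eq_one.1 e g₀.2).2.false
  have k2 : H.relIndex K ≠ 0 := left_ne_zero_of_mul (mul ▸ h0)
  have m0 : ((fin.toFinset.card : ℕ) : C) ≠ 0 := Nat.cast_ne_zero.2 ne.card_pos.ne'
  obtain ⟨μ, hμ⟩ : ∃ μ, μ = ((fin.toFinset.card : ℕ) : C)⁻¹ • ∑ s ∈ fin.toFinset, s := ⟨_, rfl⟩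
  have gμ : ∀ g : G, g • (y - μ) = g • y - μ := fun g => by
    rw [smul_sub, hμ, smul_comm, sum_orb]
  have e : ∀ g : G, g • (y - μ) - (y - μ) = g • y - y := fun g => by
    rw [gμ, sub_sub_sub_cancel_right]
  have eo : orbit G (y - μ) = (· - μ) '' orbit G y := by
    simp only [orbit, gμ, ← Set.range_comp]
    rfl
  have fin' : (orbit G (y - μ)).Finite := eo ▸ fin.image _
  have : (K.subgroupOf G).FiniteIndex := ⟨k0⟩
  have bK : Big v d K (_ * ρ) := ⟨fun s k => b.iso s (KG k), fun s k => b.com s (KG k),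
    fun w hw => step (Γ := G) v.na (fun g => b.iso g g.2) d (fun y k => b.bd y fun s a => k ⟨s, a⟩)
      fin' (n := n + 1) (by
        rw [← Set.ncard_eq_toFinset_card _ fin', eo]
        exact (Set.ncard_image_le fin).trans ((Set.ncard_eq_toFinset_card _ fin).trans_le cd))
      Δ0 θ1 (fun g => (e g).symm ▸ le g) (by
        have : y - μ = ((fin.toFinset.card : ℕ) : C)⁻¹ • ∑ s ∈ fin.toFinset, (y - s) := by
          rw [Finset.sum_sub_distrib, Finset.sum_const, smul_sub, ← hμ, ← Nat.cast_smul_eq_nsmul C,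
            inv_smul_smul₀ m0]
        rw [this, Algebra.smul_def, map_mul, v.ext', norm_inv]
        refine mul_le_mul (inv_anti₀ f0 ?_) (le_sum v.na Δ0.le fun s a =>
          (v.av.map_sub _ _).trans_le (mx s a)) (v.av.nonneg _) (by positivity)
        obtain ⟨t, ht⟩ := Nat.dvd_factorial ne.card_pos cd
        rw [ht, Nat.cast_mul, norm_mul]
        exact mul_le_of_le_one_right (norm_nonneg _) (IsUltrametricDist.norm_natCast_le_one C _))
      (K := K.subgroupOf G) (fun g => (e g).symm ▸ ⟨fun k => k.2, fun k => ⟨g.2, k⟩⟩)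
      fun g k => hw g k⟩
  rw [mul_assoc c]
  exact (ih L v d K _ bK H HK k2 (by
    have : H.relIndex K * 2 ≤ H.relIndex K * K.relIndex G := Nat.mul_le_mul_left _ (by omega)
    omega)).bd y hy

end Vale.Agent.P022K.FA
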