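import Vale.Agent.P022K.FA.St

/-!
# P022K, block FA: big fields exist (row GEN)
-/

set_option autoImplicit false

open P025H746 UniformSpace TensorProduct

noncomputable section

namespace Vale.Agent.P022K.FA

namespace Ge

variable {C : Type} [NontriviallyNormedField C]

theorem cpl {F : Type} [NormedField F] [Algebra C F] (na : IsNonarchimedean (norm : F → ℝ))
    (ex : ∀ c, ‖algebraMap C F c‖ = ‖c‖) (d₀ : Derivation C F F) {ρ : ℝ}
    (h : ∀ y, ‖d₀ y‖ ≤ ρ * ‖y‖) : ∃ (K : Type) (_ : NontriviallyNormedField K) (_ : Algebra C K)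
      (_ : IsUltrametricDist K) (_ : CompleteSpace K) (j : F →ₐ[C] K) (d : Derivation C K K),
      (∀ y, ‖j y‖ = ‖y‖) ∧ (∀ y, d (j y) = j (d₀ y)) ∧ ∀ y, ‖d y‖ ≤ ρ * ‖y‖ := by
  let j : F →+* Completion F := Completion.coeRingHom
  let _ : Algebra C (Completion F) := (j.comp (algebraMap C F)).toAlgebra
  let _ : NontriviallyNormedField (Completion F) :=
    { (inferInstance : NormedField (Completion F)) with
      non_trivial := (NontriviallyNormedField.non_trivial (α := C)).elim fun c k =>
        ⟨j (algebraMap C F c), k.trans_eq ((Completion.norm_coe _).trans (ex c)).symm⟩ }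
  have c0 : Continuous d₀.toLinearMap.toAddMonoidHom :=
    AddMonoidHomClass.continuous_of_bound _ ρ h
  let D := d₀.toLinearMap.toAddMonoidHom.completion c0
  have cD : Continuous D := AddMonoidHom.continuous_completion _ c0
  have eD : ∀ y : F, D y = (d₀ y : F) := AddMonoidHom.completion_coe _ c0
  have le : ∀ x y, D (x * y) = x * D y + y * D x := fun x y =>
    Completion.induction_on₂ x y (isClosed_eq (by fun_prop) (by fun_prop)) fun a b => by
      rw [← Completion.coe_mul, eD, eD, eD, d₀.leibniz, smul_eq_mul, smul_eq_mul,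
        Completion.coe_add, Completion.coe_mul, Completion.coe_mul]
  refine ⟨Completion F, inferInstance, inferInstance,
    IsUltrametricDist.isUltrametricDist_of_isNonarchimedean_norm fun x y =>
      Completion.induction_on₂ x y (isClosed_le (by fun_prop) (by fun_prop)) fun a b => ?g1,
    inferInstance, ⟨j, fun _ => rfl⟩, Derivation.mk' ⟨⟨D, D.map_add⟩, fun c x => ?g2⟩ le,
    Completion.norm_coe, eD, fun y => Completion.induction_on (p := fun y => ‖D y‖ ≤ ρ * ‖y‖) y
      (isClosed_le (by fun_prop) (by fun_prop)) fun a => ?g3⟩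
  case g1 => simpa only [← Completion.coe_add, Completion.norm_coe] using na a b
  case g2 =>
    have : D (algebraMap C _ c) = 0 := (eD _).trans (by rw [d₀.map_algebraMap, Completion.coe_zero])
    simp only [Algebra.smul_def, le, this, mul_zero, add_zero, RingHom.id_apply]
  case g3 =>
    rw [eD, Completion.norm_coe, Completion.norm_coe]
    exact h a

theorem ext {k R M : Type} [CommRing k] [Field R] [Field M] [Algebra k R] [Algebra k M]
    [Algebra R M] [IsScalarTower k R M] [Algebra.IsSeparable R M] (δ : Derivation k R R) :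
    ∃ d : Derivation k M M, (∀ a, d (algebraMap R M a) = algebraMap R M (δ a)) ∧
      ∀ (s : M ≃ₐ[R] M) y, d (s y) = s (d y) := by
  have := Algebra.FormallyEtale.of_isSeparable R M
  let L : M ⊗[R] Ω[R⁄k] →ₗ[M] M :=
    ((Algebra.linearMap R M).compDer δ).liftKaehlerDifferential.liftBaseChange M
  let e := KaehlerDifferential.tensorKaehlerEquivOfFormallyEtale k R M
  obtain ⟨d, hd⟩ : ∃ d : Derivation k M M, ∀ a, d (algebraMap R M a) = algebraMap R M (δ a) :=
    ⟨(L ∘ₗ e.symm.toLinearMap).compDer (KaehlerDifferential.D k M), fun a => (congrArg L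
      (KaehlerDifferential.tensorKaehlerEquivOfFormallyEtale_symm_D_algebraMap k R M a)).trans (by
        simp only [L, LinearMap.liftBaseChange_tmul, Derivation.liftKaehlerDifferential_comp_D,
          one_smul]
        rfl)⟩
  refine ⟨d, hd, fun s y => ?_⟩
  have ch : ∀ (p : Polynomial R) y, d (Polynomial.aeval y p) = p.sum (fun i c =>
      algebraMap R M (δ c) * y ^ i) + Polynomial.aeval y p.derivative * d y := fun p y => by
    induction p using Polynomial.induction_on' with
    | add p q hp hq =>
      rw [Polynomial.sum_add_index _ _ _ (by simp) (by simp [add_mul]), map_add, map_add, hp, hq,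
        map_add, map_add]
      ring
    | monomial n a =>
      rw [Polynomial.sum_monomial_index _ _ (by simp)]
      simp [Polynomial.derivative_monomial, hd]
      ring
  have a := congrArg s (ch (minpoly R y) y)
  have b := ch (minpoly R y) (s y)
  rw [Polynomial.aeval_algHom_apply, Polynomial.aeval_algHom_apply] at b
  simp only [minpoly.aeval, map_zero, map_add, map_mul, Polynomial.sum, map_sum, map_pow,
    s.commutes] at a b
  exact mul_left_cancel₀ ((map_ne_zero s).2 (Polynomial.Separable.aeval_derivative_ne_zero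
    (Algebra.IsSeparable.isSeparable R y) (minpoly.aeval R y))) (add_left_cancel (b.symm.trans a))

end Ge

theorem gen (C : Type) [NontriviallyNormedField C] [IsUltrametricDist C] [IsAlgClosed C]
    [CharZero C] : GEN C := fun F _ _ v₀ d₀ ρ h => by
  obtain ⟨K, _, _, _, _, j, d₁, a1, a2, a3⟩ :=
    letI := v₀.av.toNormedField; Ge.cpl (F := F) v₀.na v₀.ext' d₀ h
  have : CharZero K := charZero_of_injective_algebraMap (algebraMap C K).injective
  let L := AlgebraicClosure K
  obtain ⟨d, b1, b2⟩ := Ge.ext (M := L) d₁
  have ex := spectralNorm_extends (K := K) (L := L)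
  refine ⟨L, inferInstance, inferInstance, inferInstance, (IsScalarTower.toAlgHom C K L).comp j,
    ⟨MulRingNorm.mulRingNormEquivAbsoluteValue (spectralMulAlgNorm K L).toMulRingNorm,
      isNonarchimedean_spectralNorm,
      fun c => (ex (algebraMap C K c)).trans (j.commutes c ▸ (a1 _).trans (v₀.ext' c))⟩, d,
    (AlgEquiv.restrictScalarsHom C (S := K)).range, ⟨?_, ?_, fun y hy => ?_⟩,
    fun y => (ex _).trans (a1 y), fun y => (b1 _).trans (congrArg _ (a2 y)), ?_⟩
  · rintro _ ⟨s, rfl⟩ y
    exact (spectralNorm_eq_of_equiv s y).symm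
  · rintro _ ⟨s, rfl⟩
    exact b2 s
  · obtain ⟨x, rfl⟩ := (InfiniteGalois.mem_range_algebraMap_iff_fixed (k := K) y).2 fun s =>
      hy _ ⟨s, rfl⟩
    rw [b1]
    exact (ex _).trans_le ((a3 x).trans_eq (congrArg _ (ex x).symm))
  · rintro _ ⟨s, rfl⟩ y
    exact s.commutes _

end Vale.Agent.P022K.FA
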