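import Vale.Agent.P022K.FA.St

/-!
# P022K, block FA: reduced divisors (row RED)
-/

set_option autoImplicit false

open Vale.Agent.P019P

namespace Vale.Agent.P022K.FA

theorem red : RED := fun k F _ _ _ _ P B => by
  have dg1 : ∀ r : ℤ, dg (B - Finsupp.single P r) = dg B - r := fun r => by
    rw [map_sub, h4RRA_dg_single]
  have ne : ∀ D : Plk k F →₀ ℤ, (∃ z ∈ LL k D, z ≠ 0) ↔ Module.finrank k (LL k D) ≠ 0 := fun D => by
    have := LL_finite D
    rw [Ne, Submodule.finrank_eq_zero, ← Ne, Submodule.ne_bot_iff]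
  have ex : ∃ z ∈ LL k (B - Finsupp.single P (dg B - gen k F)), z ≠ 0 := (ne _).2 fun e => by
    have := RR (B - Finsupp.single P (dg B - gen k F))
    rw [e, dg1] at this
    omega
  obtain ⟨r, ⟨z, hz, z0⟩, mx⟩ := Int.exists_greatest_of_bdd
    (P := fun r => ∃ z ∈ LL k (B - Finsupp.single P r), z ≠ 0) ⟨dg B, fun r h => not_lt.1 fun c =>
      (ne _).1 h (l_eq_zero (by rw [dg1]; omega))⟩ ⟨_, ex⟩
  have no : ∀ w ∈ LL k (B - Finsupp.single P (r + 1)), w = 0 := fun w hw => by_contra fun w0 =>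
    absurd (mx _ ⟨w, hw, w0⟩) (by omega)
  have e : B - Finsupp.single P (r + 1) + Finsupp.single P 1 = B - Finsupp.single P r := by
    rw [Finsupp.single_add]
    abel
  refine ⟨B - Finsupp.single P r + dv k z, r, fun Q => ?_, ?_, ?_, ?_⟩
  · have := hz.resolve_left z0 Q
    rw [Finsupp.add_apply, dv_apply, Finsupp.coe_zero, Pi.zero_apply]
    omega
  · have := mx _ ex
    rw [map_add, dg1, dg_dv]
    omega
  · convert neg_mem (show dv k z ∈ prn k F from ⟨z, z0, rfl⟩) using 1
    abel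
  · rintro E' h0 ⟨w, w0, hw⟩
    obtain ⟨a, ha⟩ := LL_step (w := w * z) (e ▸ hz) (fun c => z0 (no z c)) (e ▸ .inr fun Q => by
      have := DFunLike.congr_fun hw Q
      have := h0 Q
      simp only [Finsupp.add_apply, Finsupp.sub_apply, dv_apply, Finsupp.coe_zero,
        Pi.zero_apply, (ord_spec Q).mul w z w0 z0] at *
      omega)
    have := no _ ha
    rw [Algebra.smul_def, ← sub_mul, mul_eq_zero, or_iff_left z0, sub_eq_zero] at this
    rwa [this, dv_const, sub_eq_zero] at hw

end Vale.Agent.P022K.FA
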