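import Vale.Agent.P022K.FA.Bc
import Vale.Agent.P022K.FI.Schw1
import Vale.Agent.P022K.FI.Exp2

/-!
# P022K, block FA: the logarithmic derivative vanishes on principal divisors
-/

set_option linter.all false

open Vale.Agent.P019P P025H746 P025H492 P025H816 P027M.K IntermediateField PowerSeries
open scoped LaurentSeries

noncomputable section

namespace Vale.Agent.P022K.FA

open FI.An4 F0.Lef P025H552

section der

variable {k F M : Type*} [Field k] [Field F] [Field M] [Algebra k F] [CFF k F] [CharZero k]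

theorem der_zero (E : F →+* M) (Δ : F →+ M) (hm : ∀ a b, Δ (a * b) = E a * Δ b + E b * Δ a)
    (hc : ∀ c, Δ (algebraMap k F c) = 0) {π : F} (hπ : ∀ a : k, π ≠ algebraMap k F a)
    (h0 : Δ π = 0) (y : F) : Δ y = 0 := by
  letI : Algebra F M := E.toAlgebra
  letI : Algebra k M := (E.comp (algebraMap k F)).toAlgebra
  have : IsScalarTower k F M := IsScalarTower.of_algebraMap_eq fun c => rfl
  let w : Derivation k F M := Derivation.mk'
    { toFun := Δ
      map_add' := Δ.map_add
      map_smul' := fun c z => by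
        rw [Algebra.smul_def, hm, hc, mul_zero, add_zero, Algebra.smul_def]
        rfl } hm
  have : FiniteDimensional k⟮π⟯ F := (finite_of_notMem hπ).2
  have : CharZero k⟮π⟯ := algebraRat.charZero _
  have h2 : ∀ e : k⟮π⟯, w (algebraMap k⟮π⟯ F e) = 0 := fun e => by
    obtain ⟨p, q, hpq⟩ := (mem_adjoin_simple_iff k (e : F)).1 e.2
    change w (e : F) = 0
    rw [hpq, div_eq_mul_inv, w.leibniz, w.leibniz_inv, w.map_aeval, w.map_aeval,
      show w π = 0 from h0]
    simp
  have ha : IsIntegral k⟮π⟯ y := Algebra.IsIntegral.isIntegral y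
  have h3 := FI.der_aeval w h2 y (minpoly k⟮π⟯ y)
  rw [minpoly.aeval, map_zero] at h3
  exact (smul_eq_zero.1 h3.symm).resolve_left
    ((minpoly.irreducible ha).separable.aeval_derivative_ne_zero (minpoly.aeval _ y))

end der

section coef

variable {C Ω : Type*} [Field C] [Field Ω] [Algebra C Ω]

/-- a derivation applied to the coefficients -/
def cd (d : Derivation C Ω Ω) : Derivation C Ω⟦X⟧ Ω⟦X⟧ :=
  Derivation.mk'
    { toFun := fun f => PowerSeries.mk fun n => d (coeff n f)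
      map_add' := fun f g => by ext; simp
      map_smul' := fun c f => PowerSeries.ext fun n => by
        rw [coeff_mk]
        exact (d.map_smul c (coeff n f)).trans
          (congrArg (c • ·) (coeff_mk n fun n => d (coeff n f)).symm) } fun f g => by
    ext n
    simp only [LinearMap.coe_mk, AddHom.coe_mk, coeff_mk,
      smul_eq_mul, map_add, coeff_mul, map_sum, Derivation.leibniz, Finset.sum_add_distrib]
    congr 1
    exact (Finset.Nat.sum_antidiagonal_swap (f := fun p => coeff p.1 g * d (coeff p.2 f)))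

theorem coeff_cd (d : Derivation C Ω Ω) (f : Ω⟦X⟧) (n : ℕ) : coeff n (cd d f) = d (coeff n f) :=
  coeff_mk n fun n => d (coeff n f)

theorem exists_add_der {k R : Type*} (M : Type*) [CommRing k] [CommRing R] [Field M] [Algebra k R]
    [Algebra R M] [IsFractionRing R M] (δ : Derivation k R R) : ∃ dc : M →+ M,
    (∀ a b, dc (a * b) = a * dc b + b * dc a) ∧
      ∀ g, dc (algebraMap R M g) = algebraMap R M (δ g) := by
  letI a : Algebra k M := ((algebraMap R M).comp (algebraMap k R)).toAlgebra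
  have : IsScalarTower k R M := IsScalarTower.of_algebraMap_eq fun c => rfl
  obtain ⟨dc, hdc⟩ := FI.exists_der_frac (M := M) δ
  exact ⟨dc.toLinearMap.toAddMonoidHom, dc.leibniz, hdc⟩

theorem exists_cd (d : Derivation C Ω Ω) : ∃ dc : Ω⸨X⸩ →+ Ω⸨X⸩,
    (∀ a b, dc (a * b) = a * dc b + b * dc a) ∧ ∀ g, dc (ofPS g) = ofPS (cd d g) :=
  exists_add_der Ω⸨X⸩ (cd d)

theorem cd_X (d : Derivation C Ω Ω) : cd d X = 0 := by
  ext n
  rw [coeff_cd, coeff_X]
  split_ifs <;> simp

theorem cd_C (d : Derivation C Ω Ω) (c : Ω) : cd d (PowerSeries.C c) = PowerSeries.C (d c) := by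
  ext n
  rw [coeff_cd, coeff_C, coeff_C]
  split_ifs <;> simp

end coef

section loc

variable {C k₀ Ω F : Type} [Field C] [Field k₀] [Field Ω] [Field F] [Algebra C Ω] [Algebra Ω F]
  [Algebra k₀ F] [CFF Ω F] [CharZero Ω] {d : Derivation C Ω Ω} {δ : Derivation k₀ F F}
  {D : Derivation Ω F F} {Q : Plk Ω F} {π : F}

/-- the derivation which kills a local parameter acts on the values -/
theorem val_der (hδ : ∀ c, δ (algebraMap Ω F c) = algebraMap Ω F (d c)) (hD : D ≠ 0)
    (hπ : ord Q π = 1) {z : F} {c : Ω} (hz : Val Q z c) :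
    Val Q (δ z - δ π / D π * D z) (d c) := by
  obtain ⟨E, e1, e2, e3⟩ := exists_exp Q hπ
  obtain ⟨dc, hdc, hdc'⟩ := exists_cd d
  have h0 : D π ≠ 0 := D_ne_zero (P := Q) hD (by omega)
  have h1 := der_zero (k := Ω) (E : F →+* Ω⸨X⸩)
    { toFun := fun z => E (δ z - δ π / D π * D z) - dc (E z)
      map_zero' := by simp
      map_add' := fun a b => by simp only [map_add, map_sub, map_mul]; ring }
    (fun a b => by
      simp only [AddMonoidHom.coe_mk, ZeroHom.coe_mk, map_add, map_sub, map_mul,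
        Derivation.leibniz, smul_eq_mul, RingHom.coe_coe, hdc]
      ring)
    (fun c => by
      simp only [AddMonoidHom.coe_mk, ZeroHom.coe_mk]
      rw [hδ, D.map_algebraMap, mul_zero, sub_zero, E.commutes, E.commutes, ← ofPS_C, ← ofPS_C,
        hdc', cd_C, sub_self])
    (π := π) (nc_of_ord (P := Q) (by omega))
    (by
      simp only [AddMonoidHom.coe_mk, ZeroHom.coe_mk]
      rw [div_mul_cancel₀ _ h0, sub_self, map_zero, e1, ← ofPS_X, hdc', cd_X, map_zero, sub_self]) z
  obtain ⟨g, hg⟩ := (e2 z).1 ((mem_iff_ord Q z).2 (mem_Mge.1 hz.mem))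
  have h2 : E (δ z - δ π / D π * D z) = ofPS (cd d g) := by
    rw [← hdc', ← hg]
    exact sub_eq_zero.1 h1
  have h3 : c = constantCoeff g := hz.unique (e2.sub_mem hg)
  have h4 := e2.sub_mem h2
  rwa [← coeff_zero_eq_constantCoeff_apply, coeff_cd, coeff_zero_eq_constantCoeff_apply,
    ← h3] at h4

theorem div_reg (hD : D ≠ 0) (hπ : ord Q π = 1) {z : F} (hz : z ∈ Mge Q 0) :
    D z / D π ∈ Mge Q 0 := by
  refine mge_div (D_mem hD (P := Q) (z := z) ?_) (by rw [ordD_eq hD hπ, sub_self])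
  rcases mem_Mge.1 hz with h | h
  · rw [h, ord_zero]
  · exact h

theorem res_dlog (hδ : ∀ c, δ (algebraMap Ω F c) = algebraMap Ω F (d c)) (hD : D ≠ 0)
    (hπ : ord Q π = 1) {θ h : F} {b : Ω} (ha : θ / D π ∈ Mge Q 0)
    (hb : Val Q (θ * (δ π / D π)) b) (h0 : h ≠ 0) :
    Res D (θ * (δ h / h)) Q (ord Q h * b) := by
  have π0 : π ≠ 0 := ne_of_ord (P := Q) (by omega)
  have D0 : D π ≠ 0 := D_ne_zero (P := Q) hD (by omega)
  obtain ⟨u, hu⟩ : ∃ u, u = h / π ^ ord Q h := ⟨_, rfl⟩
  have u0 : u ≠ 0 := hu ▸ div_ne_zero h0 (zpow_ne_zero _ π0)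
  have u1 : ord Q u = 0 := by
    rw [hu, div_eq_mul_inv, ord_mul _ h0 (inv_ne_zero (zpow_ne_zero _ π0)), ord_inv, ord_zpow, hπ]
    ring
  have e : h = π ^ ord Q h * u := by rw [hu, mul_div_cancel₀ _ (zpow_ne_zero _ π0)]
  generalize ord Q h = m at e
  have e1 : π * (θ * (δ h / h)) / D π =
      π * (θ / D π * ((δ u - δ π / D π * D u) / u) + θ * (δ π / D π) * (D u / D π / u)) +
        algebraMap Ω F m * (θ * (δ π / D π)) := by
    have := zpow_ne_zero m π0
    rw [e, δ.leibniz, δ.leibniz_zpow, map_intCast, zpow_sub₀ π0]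
    simp only [smul_eq_mul, zsmul_eq_mul, zpow_one]
    field_simp
    ring
  refine ⟨π, m * b, by omega, ?_, by rw [hπ, Int.cast_one, one_mul]⟩
  rw [e1, ← zero_add (m * b : Ω)]
  refine Val.add (Val.zero_iff.2 (mge_mul (m := 1) (n := 0) (mge_of_le hπ.ge) (add_mem ?_ ?_)
    le_rfl)) ((Val.const Q _).mul hb)
  · exact mge_mul ha (mge_div (l := 0) (val_der hδ hD hπ (val_vl u1.ge)).mem (by omega)) le_rfl
  · exact mge_mul hb.mem (mge_div (l := 0) (div_reg hD hπ (mge_of_le u1.ge)) (by omega)) le_rfl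

end loc

variable {C K Ω K' : Type} [Field C] [Field K] [Field Ω] [Field K'] [Algebra C K]
  [Algebra C Ω] [Algebra C K'] [Algebra K K'] [Algebra Ω K'] [IsScalarTower C K K']
  [IsScalarTower C Ω K'] [CFF C K] [CFF Ω K'] [CharZero C]

/-- the logarithmic derivative of a divisor -/
def dlD (K' : Type) [Field K'] [Algebra K K'] [Algebra Ω K'] [CFF Ω K'] (d : Derivation C Ω Ω)
    (θ x : K) : (Plk Ω K' →₀ ℤ) →+ Ω :=
  Finsupp.liftAddHom fun Q => zmultiplesHom Ω (dl d θ x Q)

theorem dlD_single (d : Derivation C Ω Ω) (θ x : K) (Q : Plk Ω K') (n : ℤ) :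
    dlD K' d θ x (Finsupp.single Q n) = n • dl d θ x Q := by simp [dlD]

theorem dlD_apply (d : Derivation C Ω Ω) (θ x : K) (A : Plk Ω K' →₀ ℤ) :
    dlD K' d θ x A = ∑ Q ∈ A.support, A Q • dl d θ x Q := rfl

/-- **RES** -/
theorem dlD_prn (h : P025H941.IsBC C K Ω K') (d : Derivation C Ω Ω) {x θ : K}
    (hx : ∀ a : C, x ≠ algebraMap C K a) (hθ : θ ∈ LL C (wdv C x)) {A : Plk Ω K' →₀ ℤ}
    (hA : A ∈ prn Ω K') : dlD K' d θ x A = 0 := by
  obtain ⟨f, f0, rfl⟩ := hA
  have : CharZero Ω := charZero_of_injective_algebraMap (algebraMap C Ω).injective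
  have : FiniteDimensional C⟮x⟯ K := (finite_of_notMem hx).2
  obtain ⟨D₀, h0⟩ := P025H133.exists_der x (finite_of_notMem hx).1
  obtain ⟨D, hD⟩ := h.exists_derivation D₀
  obtain ⟨δ, hδ⟩ := (bc_symm h).exists_derivation d
  have h1 : D (algebraMap K K' x) = 1 := by rw [hD, h0, map_one]
  have D0 : D ≠ 0 := FI.ne_zero_of_one h1
  have key : ∀ Q : Plk Ω K', Res D (algebraMap K K' θ * (δ f / f)) Q (ord Q f * -dl d θ x Q) := by
    intro Q
    rcases pt_or_cst h Q with ⟨φ, hφ⟩ | ⟨P, hP⟩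
    · obtain ⟨π, -, hπ⟩ := exists_unif Q
      refine res_dlog hδ D0 hπ ?_ ?_ f0
      · have := mge_mul (hφ θ).mem (div_reg D0 hπ (hφ x).mem) le_rfl
        rwa [h1, mul_one_div] at this
      · have := (hφ θ).mul (val_der hδ D0 hπ (hφ x)).neg
        rwa [δ.map_algebraMap, h1, mul_one, zero_sub, neg_neg, mul_neg, ← hφ.dl_eq] at this
    · obtain ⟨π, -, hπ⟩ := exists_unif P
      refine res_dlog hδ D0 ((hP π).trans hπ) ?_ ?_ f0
      · rw [hD, ← map_div₀, div_eq_mul_inv]
        rcases mem_Mge.1 (FI.coef_mem hx h0 hπ hθ) with h2 | h2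
        · rw [h2, map_zero]
          exact zero_mem _
        · exact mge_of_le (by rwa [hP])
      · rw [δ.map_algebraMap, zero_div, mul_zero, hP.dl_eq, neg_zero, Val.zero_iff]
        exact zero_mem _
  have h2 := res_sum D0 (dv Ω f).support _ (fun Q _ => key Q) fun Q hQ => by
    have := key Q
    rwa [ord_of_notMem hQ, Int.cast_zero, zero_mul] at this
  rw [dlD_apply, ← neg_eq_zero, ← h2, ← Finset.sum_neg_distrib]
  exact Finset.sum_congr rfl fun Q _ => by rw [dv_apply, zsmul_eq_mul, mul_neg]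

end Vale.Agent.P022K.FA
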