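import Vale.Agent.P022K.FA.Weil
import Vale.Agent.P022K.FA.Res
import Vale.Agent.P022K.FA.Red
import Vale.Agent.P022K.FA.Der
import Vale.Agent.P022K.FA.Gen
import Vale.Agent.P022K.FA.Fa2

/-!
# P022K, block FA: the bound and the limit (rows FA1, FA2)
-/

set_option autoImplicit false
set_option linter.unusedSectionVars false

open Vale.Agent.P019P P025H746 P025H492 P025H816 P027M.K Finsupp

noncomputable section

namespace Vale.Agent.P022K.FA

namespace Mn

variable {C K : Type} [NontriviallyNormedField C] [Field K] [Algebra C K] [CFF C K] [CharZero C]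

/-- the Schwarz bound, from a bound of the derivation on the image only -/
theorem bnd {x θ : K} (hx : ∀ a : C, x ≠ algebraMap C K a) (hθ : θ ∈ LL C (wdv C x)) :
    ∃ c : ℝ, 0 < c ∧ ∀ (Ω : Type) [Field Ω] [Algebra C Ω] (v : NV C Ω) (d : Derivation C Ω Ω)
      (ρ : ℝ) (ψ : K →ₐ[C] Ω), (∀ z, v (d (ψ z)) ≤ ρ * v (ψ z)) →
      v (ψ θ * d (ψ x)) ≤ c * ρ := by
  obtain ⟨c, hc, h⟩ := FI.bound.{0} hx hθ
  obtain ⟨D, hD, -⟩ := P297Y.Crr.exists_ddx hx
  refine ⟨c, hc, fun Ω _ _ v d ρ ψ hd => ?_⟩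
  have hρ : 0 ≤ ρ := by simpa using hd 1
  by_cases h0 : d (ψ x) = 0
  · rw [h0, mul_zero, map_zero]
    positivity
  have p := v.av.pos h0
  have := h K (v.av.comp (f := ψ.toRingHom) ψ.injective)
    (fun a => (congrArg v.av (ψ.commutes a)).trans (v.ext' a)) D (ρ / v (d (ψ x)))
    (fun y => by
      have := hd y
      rw [FI.chain hx hD d ψ y, map_mul] at this
      rw [div_mul_eq_mul_div, le_div_iff₀ p]
      exact this) (AlgHom.id C K)
  rw [AlgHom.id_apply, AlgHom.id_apply, hD, mul_one, ← mul_div_assoc, le_div_iff₀ p] at this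
  rw [map_mul]
  exact this

theorem v_int [IsUltrametricDist C] {Ω : Type} [Field Ω] [Algebra C Ω] (v : NV C Ω) (n : ℤ)
    (y : Ω) : v (n • y) ≤ v y := by
  rw [zsmul_eq_mul, map_mul, ← map_intCast (algebraMap C Ω), v.ext']
  exact mul_le_of_le_one_left (v.av.nonneg _) (IsUltrametricDist.norm_intCast_le_one C n)

theorem card_le {k F : Type} [Field k] [Field F] [Algebra k F] [CFF k F] {E : Plk k F →₀ ℤ}
    (h : 0 ≤ E) : (E.support.card : ℤ) ≤ dg E := by
  conv_rhs => rw [← Finsupp.sum_single E, Finsupp.sum, map_sum]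
  rw [Finset.card_eq_sum_ones, Nat.cast_sum]
  refine Finset.sum_le_sum fun P hP => ?_
  have := h P
  have := Finsupp.mem_support_iff.1 hP
  rw [dg_sgl]
  simp only [Finsupp.coe_zero, Pi.zero_apply] at *
  omega

variable {Ω K' : Type} [Field Ω] [Field K'] [Algebra C Ω] [Algebra C K'] [Algebra K K']
  [Algebra Ω K'] [IsScalarTower C K K'] [IsScalarTower C Ω K'] [CFF Ω K']

/-- the points of a stable divisor have small orbits -/
theorem idx (h : P025H941.IsBC C K Ω K') (G : Subgroup (Ω ≃ₐ[C] Ω)) {E : Plk Ω K' →₀ ℤ}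
    (hE : ∀ s ∈ G, ∀ (t : K' ≃+* K') (ht : Sm K s t),
      mapDomain (plEquiv t s.toRingEquiv ht.cst) E = E)
    {ψ : K →ₐ[C] Ω} {Q : Plk Ω K'} (hQ : Pt ψ Q) (h0 : E Q ≠ 0) :
    ∃ H : Subgroup (Ω ≃ₐ[C] Ω), H ≤ G ∧ H.relIndex G ≠ 0 ∧ H.relIndex G ≤ E.support.card ∧
      ∀ s ∈ H, ∀ z, s (ψ z) = ψ z := by
  classical
  let a : K → Ω := ψ
  have k1 : ∀ b : MulAction.orbit G a, ∃ R ∈ E.support, ∃ χ : K →ₐ[C] Ω, Pt χ R ∧ ⇑χ = b.1 := by
    rintro ⟨_, s, rfl⟩
    obtain ⟨t, ht⟩ := exists_sm h s.1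
    refine ⟨_, Finsupp.mem_support_iff.2 ?_, _, hQ.sm ht, rfl⟩
    rw [← hE s.1 s.2 t ht, mapDomain_apply (plEquiv t _ ht.cst).injective]
    exact h0
  choose R hR χ h1 h2 using k1
  have inj : Function.Injective fun b => (⟨R b, hR b⟩ : E.support) := fun b b' e =>
    Subtype.ext (by rw [← h2, ← h2, (h1 b).unique ((show R b' = R b from (congrArg Subtype.val e).symm) ▸ h1 b')])
  have fin : Finite (MulAction.orbit G a) := Finite.of_injective _ inj
  have e : (G ⊓ MulAction.stabilizer (Ω ≃ₐ[C] Ω) a).relIndex G = Nat.card (MulAction.orbit G a) := by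
    rw [Subgroup.inf_relIndex_left, Nat.card_coe_set_eq, ← MulAction.index_stabilizer]
    rfl
  refine ⟨G ⊓ MulAction.stabilizer _ a, inf_le_left, ?_, ?_, fun s hs z => congrFun hs.2 z⟩
  · have : Nonempty (MulAction.orbit G a) := ⟨⟨a, MulAction.mem_orbit_self a⟩⟩
    rw [e]
    exact Nat.card_pos.ne'
  · rw [e, ← Nat.card_eq_finsetCard]
    exact Nat.card_le_card_of_injective _ inj

end Mn

open Mn in
theorem fa1 (C : Type) [NontriviallyNormedField C] [IsUltrametricDist C] [IsAlgClosed C]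
    [CharZero C] : FA1 C := fun p p0 p1 K F ι _ _ _ _ _ _ v₀ d₀ ρ h₀ φ c hm x θ hx hθ => by
  classical
  obtain ⟨Ω, _, _, _, j, v, d, G, hB, j1, j2, j3⟩ := FA.gen C F v₀ d₀ ρ h₀
  obtain ⟨K', _, _, _, _, _, _, h, _⟩ := P025H941.exists_bc_cff C K Ω
  have : CharZero Ω := charZero_of_injective_algebraMap (algebraMap C Ω).injective
  choose Q hQ using fun i => exists_pt h (j.comp (φ i))
  obtain ⟨P, -⟩ := exists_pole hx
  obtain ⟨R, hR⟩ := exists_cst h P
  obtain ⟨c₁, -, h₁⟩ := der C (P019P.gen Ω K')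
  obtain ⟨c₂, p₂, h₂⟩ := bnd hx hθ
  let w : ι → F := fun i => φ i θ * d₀ (φ i x)
  have k : ∀ m : ℕ, v₀ (∑ i, c i • w i) ≤ ‖(p : C)‖ ^ m * (c₂ * |c₁ * ρ| + ∑ i, v₀ (w i)) := by
    intro m
    obtain ⟨n, a, b⟩ := hm m
    have pm : p ^ m ≠ 0 := pow_ne_zero _ p0
    obtain ⟨B, -, hb⟩ := pic0_div (Nat.cast_ne_zero.2 pm : ((p ^ m : ℕ) : Ω) ≠ 0) (cyc Q n R)
      (dg_cyc Q n R)
    obtain ⟨E, r, e0, e1, e2, e3⟩ := red Ω K' R B
    have st : ∀ s ∈ G, ∀ (t : K' ≃+* K') (ht : Sm K s t),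
        mapDomain (plEquiv t s.toRingEquiv ht.cst) E = E := fun s hs t ht => by
      have q1 := weil_step h hQ n hR pm ht (fun i z => j3 s hs _) (fun g g0 o => by
        obtain ⟨y, e⟩ := b g g0 o
        exact ⟨j y, j3 s hs y, by
          simpa only [map_prod, map_pow, map_zpow₀, AlgHom.comp_apply] using congrArg j e⟩) hb
      obtain ⟨f, f0, hf⟩ := e2
      have q2 : mapDomain (plEquiv t s.toRingEquiv ht.cst) B -
          (mapDomain (plEquiv t s.toRingEquiv ht.cst) E + single R r) ∈ prn Ω K' := by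
        refine ⟨t f, (map_ne_zero t).2 f0, ?_⟩
        have := map_sub (mapDomain.addMonoidHom (plEquiv t s.toRingEquiv ht.cst)) B (E + single R r)
        rw [map_add] at this
        simp only [mapDomain.addMonoidHom_apply, mapDomain_single, hR.sm h ht] at this
        rw [dv_plEquiv t _ ht.cst, ← this, hf]
      refine e3 _ (fun S => ?_) ?_
      · obtain ⟨S, rfl⟩ := (plEquiv t s.toRingEquiv ht.cst).surjective S
        rw [mapDomain_apply (plEquiv t _ ht.cst).injective]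
        exact e0 S
      · convert add_mem (sub_mem q1 q2) (show B - (E + single R r) ∈ prn Ω K' from ⟨f, f0, hf⟩)
          using 1
        abel
    have bE : v (dlD K' d θ x E) ≤ c₂ * |c₁ * ρ| := by
      rw [dlD_apply]
      refine De.le_sum v.na (by positivity) fun S hS => (v_int v _ _).trans ?_
      rcases pt_or_cst h S with ⟨ψ, hψ⟩ | ⟨P', hP⟩
      · obtain ⟨H, a1, a2, a3, a4⟩ := idx h G st hψ (Finsupp.mem_support_iff.1 hS)
        have := card_le e0
        rw [hψ.dl_eq]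
        exact (h₂ Ω v d _ ψ fun z => (h₁ Ω v d G ρ hB H a1 a2 (by omega)).bd _
          fun s hs => a4 s hs z).trans (mul_le_mul_of_nonneg_left (le_abs_self _) p₂.le)
      · rw [hP.dl_eq, map_zero]
        positivity
    have q3 := dlD_prn h d hx hθ hb
    have q4 := dlD_prn h d hx hθ e2
    rw [map_sub, map_add, dlD_single, hR.dl_eq, smul_zero, add_zero, sub_eq_zero] at q4
    rw [map_sub, map_nsmul, q4, cyc, map_sub, map_sum, dlD_single, hR.dl_eq, smul_zero, sub_zero,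
      sub_eq_zero] at q3
    have q5 : j (∑ i, n i • w i) = p ^ m • dlD K' d θ x E := by
      rw [← q3, map_sum]
      refine Finset.sum_congr rfl fun i _ => ?_
      rw [dlD_single, (hQ i).dl_eq, map_zsmul, map_mul, ← j2]
      rfl
    have q6 : v₀ (∑ i, n i • w i) ≤ ‖(p : C)‖ ^ m * (c₂ * |c₁ * ρ|) := by
      rw [← j1, q5, nsmul_eq_mul, map_mul, ← map_natCast (algebraMap C Ω), v.ext', Nat.cast_pow,
        norm_pow]
      exact mul_le_mul_of_nonneg_left bE (by positivity)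
    have q7 : ∑ i, c i • w i = ∑ i, n i • w i + ∑ i, (c i - n i) • w i := by
      rw [← Finset.sum_add_distrib]
      refine Finset.sum_congr rfl fun i _ => ?_
      rw [sub_smul, Int.cast_smul_eq_zsmul, add_sub_cancel]
    rw [q7, mul_add, Finset.mul_sum]
    refine (v₀.av.add_le _ _).trans (add_le_add q6 ((v₀.av.sum_le _ _).trans
      (Finset.sum_le_sum fun i _ => ?_)))
    rw [Algebra.smul_def, map_mul, v₀.ext']
    exact mul_le_mul_of_nonneg_right (a i) (v₀.av.nonneg _)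
  have := ge_of_tendsto' (((tendsto_pow_atTop_nhds_zero_of_lt_one (norm_nonneg _) p1).mul_const
    _)) k
  rw [zero_mul] at this
  exact v₀.av.eq_zero.1 (this.antisymm (v₀.av.nonneg _))

/-- **FAITH**, core -/
theorem fa2' (C : Type) [NontriviallyNormedField C] [IsUltrametricDist C] [IsAlgClosed C]
    [CharZero C] [CompleteSpace C] : FA2 C := fa2 (fa1 C)

end Vale.Agent.P022K.FA
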