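import Vale.Agent.P022K.FI.Schw
import Vale.Agent.P022K.FI.AnM
import Vale.Agent.P022K.F0.Lef1
import Vale.Agent.P027M.K.Pic
import Vale.Agent.P025.R2.H941.BcCFF
import Vale.Agent.P025.R2.H941.Der
import Vale.Agent.P025.R2.H816.BC4

/-!
# P022K, block FA (faithfulness): statements

A cycle of points of a curve with values in a normed differential field on which all Kummer
functions of level `n` are `n`-th powers has logarithmic derivative divisible by `n`.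
-/

set_option autoImplicit false
set_option linter.unusedSectionVars false

open Vale.Agent.P019P P025H746 P025H492 P025H816 P027M.K PowerSeries
open scoped LaurentSeries

noncomputable section

namespace Vale.Agent.P022K.FA

section big

variable {C Ω : Type} [NontriviallyNormedField C] [Field Ω] [Algebra C Ω]

/-- a normed field with a derivation which is bounded on the fixed field of a group -/
structure Big (v : NV C Ω) (d : Derivation C Ω Ω) (G : Subgroup (Ω ≃ₐ[C] Ω)) (ρ : ℝ) : Prop where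
  iso : ∀ s ∈ G, ∀ y, v (s y) = v y
  com : ∀ s ∈ G, ∀ y, d (s y) = s (d y)
  bd : ∀ y, (∀ s ∈ G, s y = y) → v (d y) ≤ ρ * v y

end big

section bc

variable {C K Ω : Type} (K' : Type) [Field C] [Field K] [Field Ω] [Field K'] [Algebra C K]
  [Algebra C Ω] [Algebra K K'] [Algebra Ω K'] [CFF C K] [CFF Ω K']

variable {K'} in
/-- `Q` is the place of the point `φ` -/
def Pt (φ : K →ₐ[C] Ω) (Q : Plk Ω K') : Prop := ∀ z, Val Q (algebraMap K K' z) (φ z)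

variable {K'} in
/-- `Q` is the place above `P` -/
def Cst (P : Plk C K) (Q : Plk Ω K') : Prop := ∀ z, ord Q (algebraMap K K' z) = ord P z

variable {K'} in
variable (K) in
/-- `t` is `s` on the constants and the identity on `K` -/
structure Sm (s : Ω ≃ₐ[C] Ω) (t : K' ≃+* K') : Prop where
  fix : ∀ z, t (algebraMap K K' z) = algebraMap K K' z
  cst : ∀ c, t (algebraMap Ω K' c) = algebraMap Ω K' (s.toRingEquiv c)

variable {K'} in
open Classical in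
/-- the pull back of `θ dx` to a place -/
def dl (d : Derivation C Ω Ω) (θ x : K) (Q : Plk Ω K') : Ω :=
  if h : ∃ φ : K →ₐ[C] Ω, Pt φ Q then h.choose θ * d (h.choose x) else 0

end bc

variable (C : Type) [NontriviallyNormedField C] [IsUltrametricDist C] [IsAlgClosed C] [CharZero C]

/-- **DER**: the derivation is bounded on extensions of bounded degree -/
def DER : Prop := ∀ n : ℕ, ∃ c : ℝ, 0 < c ∧ ∀ (Ω : Type) [Field Ω] [Algebra C Ω] (v : NV C Ω)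
  (d : Derivation C Ω Ω) (G : Subgroup (Ω ≃ₐ[C] Ω)) (ρ : ℝ), Big v d G ρ →
  ∀ H : Subgroup (Ω ≃ₐ[C] Ω), H ≤ G → H.relIndex G ≠ 0 → H.relIndex G ≤ n → Big v d H (c * ρ)

/-- **GEN**: big fields exist -/
def GEN : Prop := ∀ (F : Type) [Field F] [Algebra C F] (v₀ : NV C F) (d₀ : Derivation C F F)
  (ρ : ℝ), (∀ y, v₀ (d₀ y) ≤ ρ * v₀ y) →
  ∃ (Ω : Type) (_ : Field Ω) (_ : Algebra C Ω) (_ : IsAlgClosed Ω) (ι : F →ₐ[C] Ω) (v : NV C Ω)
    (d : Derivation C Ω Ω) (G : Subgroup (Ω ≃ₐ[C] Ω)), Big v d G ρ ∧ (∀ y, v (ι y) = v₀ y) ∧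
    (∀ y, d (ι y) = ι (d₀ y)) ∧ ∀ s ∈ G, ∀ y, s (ι y) = ι y

/-- **RED**: reduced divisors -/
def RED : Prop := ∀ (k F : Type) [Field k] [Field F] [Algebra k F] [CFF k F] (P : Plk k F)
  (B : Plk k F →₀ ℤ), ∃ (E : Plk k F →₀ ℤ) (r : ℤ), 0 ≤ E ∧ dg E ≤ gen k F ∧
    B - (E + Finsupp.single P r) ∈ prn k F ∧ ∀ E', 0 ≤ E' → E' - E ∈ prn k F → E' = E

/-- **FA1**: the bound and the limit, over a normed differential field -/
def FA1 : Prop := ∀ (p : ℕ), p ≠ 0 → ‖(p : C)‖ < 1 → ∀ (K F ι : Type) [Field K] [Algebra C K]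
  [CFF C K] [Field F] [Algebra C F] [Fintype ι] (v : NV C F) (d : Derivation C F F) (ρ : ℝ),
  (∀ y, v (d y) ≤ ρ * v y) → ∀ (φ : ι → K →ₐ[C] F) (c : ι → C),
  (∀ m : ℕ, ∃ n : ι → ℤ, (∀ i, ‖c i - n i‖ ≤ ‖(p : C)‖ ^ m) ∧ ∀ g : K, g ≠ 0 →
    (∀ P : Plk C K, ((p ^ m : ℕ) : ℤ) ∣ ord P g) → ∃ y : F, ∏ i, φ i g ^ n i = y ^ p ^ m) →
  ∀ x θ : K, (∀ a : C, x ≠ algebraMap C K a) → θ ∈ LL C (wdv C x) →
    ∑ i, c i • (φ i θ * d (φ i x)) = 0

/-- **FA2**: the same for expansions which are meromorphic on a disc -/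
def FA2 [CompleteSpace C] : Prop := ∀ (p : ℕ), p ≠ 0 → ‖(p : C)‖ < 1 → ∀ (K ι : Type) [Field K]
  [Algebra C K] [CFF C K] [Fintype ι] (r : ℝ), 0 < r → ∀ (φ : ι → K →ₐ[C] C⸨X⸩) (c : ι → C),
  (∀ i z, φ i z ∈ FI.MM C r) →
  (∀ m : ℕ, ∃ n : ι → ℤ, (∀ i, ‖c i - n i‖ ≤ ‖(p : C)‖ ^ m) ∧ ∀ g : K, g ≠ 0 →
    (∀ P : Plk C K, ((p ^ m : ℕ) : ℤ) ∣ ord P g) →
    ∃ y ∈ FI.MM C r, ∏ i, φ i g ^ n i = y ^ p ^ m) →
  ∀ x θ : K, (∀ a : C, x ≠ algebraMap C K a) → θ ∈ LL C (wdv C x) →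
    ∑ i, c i • (φ i θ * LaurentSeries.derivative C (φ i x)) = 0

end Vale.Agent.P022K.FA
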