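import Vale.Agent.P022K.FA.Bc

/-!
# P022K, block FA: the division points of the cycle are fixed
-/

set_option linter.all false

open Vale.Agent.P019P P025H746 P025H492 P025H816 P027M.K Finsupp

noncomputable section

namespace Vale.Agent.P022K.FA

section abs

variable {k F : Type} [Field k] [Field F] [Algebra k F] [CFF k F]

/-- the value of a function on a divisor, additively -/
def evd (f : Fˣ) : (Plk k F →₀ ℤ) →+ Additive kˣ :=
  Finsupp.liftAddHom fun P => zmultiplesHom _ (lc P f)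

theorem evd_single (f : Fˣ) (P : Plk k F) (m : ℤ) : evd f (single P m) = m • lc P f :=
  Finsupp.liftAddHom_apply_single _ _ _

theorem evd_eq_sum (f : Fˣ) {D : Plk k F →₀ ℤ} {S : Finset (Plk k F)} (h : D.support ⊆ S) :
    evd f D = ∑ P ∈ S, D P • lc P f :=
  Finsupp.sum_of_support_subset D h (fun P m => m • lc P f) fun _ _ => zero_smul _ _

theorem evd_div (f g : Fˣ) (D : Plk k F →₀ ℤ) : evd (f / g) D = evd f D - evd g D := by
  simp only [evd_eq_sum _ (subset_refl D.support), lc_div, zsmul_sub, Finset.sum_sub_distrib]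

theorem e_evd {n : ℕ} (hn : n ≠ 0) {f g : Fˣ} {A B : Plk k F →₀ ℤ}
    (hA : n • A = dv k (f : F)) (hB : n • B = dv k (g : F)) (h : ∀ P, A P = 0 ∨ B P = 0) :
    e k n f g = evd f B - evd g A := by
  classical
  have ha : ∀ P, ord P (f : F) = n * A P := fun P => by
    rw [← dv_apply, ← hA, Finsupp.smul_apply, nsmul_eq_mul]
  have hb : ∀ P, ord P (g : F) = n * B P := fun P => by
    rw [← dv_apply, ← hB, Finsupp.smul_apply, nsmul_eq_mul]
  rw [e_eq_sum n (S := A.support ∪ B.support) fun P hP => by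
      rw [Finset.mem_union, not_or, Finsupp.notMem_support_iff, Finsupp.notMem_support_iff] at hP
      rw [ha, hb, hP.1, hP.2]; simp,
    evd_eq_sum f (Finset.subset_union_right (s₁ := A.support)),
    evd_eq_sum g (Finset.subset_union_left (s₂ := B.support)), ← Finset.sum_sub_distrib]
  refine Finset.sum_congr rfl fun P _ => ?_
  rw [w_eq hn (ha P) (hb P)]
  rcases h P with h1 | h1 <;> simp [h1]

variable {t : F ≃+* F} {s : k ≃+* k} (hs : ∀ a, t (algebraMap k F a) = algebraMap k F (s a))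

theorem evd_semi {f : Fˣ} {D : Plk k F →₀ ℤ} (h : ∀ P, D P ≠ 0 → ord P (f : F) = 0) :
    evd (mU t f) (mapDomain (plEquiv t s hs) D) = aU s (evd f D) := by
  conv_lhs => rw [← Finsupp.sum_single D, Finsupp.sum, Finsupp.mapDomain_finsetSum, map_sum]
  rw [evd_eq_sum f (subset_refl D.support), map_sum]
  refine Finset.sum_congr rfl fun P hP => ?_
  rw [mapDomain_single, evd_single, lc_semi hs (h P (mem_support_iff.1 hP)), map_zsmul]

theorem md_sub_smul (σ : Plk k F → Plk k F) (A B : Plk k F →₀ ℤ) (n : ℕ) :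
    mapDomain σ (A - n • B) = mapDomain σ A - n • mapDomain σ B := by
  have := map_sub (mapDomain.addMonoidHom σ) A (n • B)
  rwa [map_nsmul] at this

theorem dv_quot {n : ℕ} {A B : Plk k F →₀ ℤ} {f : Fˣ} (hf : A - n • B = dv k (f : F))
    (hA : mapDomain (plEquiv t s hs) A = A) :
    n • (mapDomain (plEquiv t s hs) B - B) = dv k ((f / mU t f : Fˣ) : F) := by
  rw [div_eq_mul_inv, Units.val_mul, dv_mul f.ne_zero (Units.ne_zero _), Units.val_inv_eq_inv_val,
    dv_inv, mU_val, dv_plEquiv t s hs, ← hf, md_sub_smul, hA, smul_sub]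
  abel

theorem mem_divU_of {n : ℕ} {D : Plk k F →₀ ℤ} {f : Fˣ} (h : n • D = dv k (f : F)) :
    f ∈ divU k F n := fun P => by
  rw [← dv_apply, ← h, Finsupp.smul_apply, nsmul_eq_mul]
  exact dvd_mul_right _ _

theorem e_fix {n : ℕ} (hn : n ≠ 0) (hμ : ∀ a : Additive kˣ, n • a = 0 → aU s a = a)
    {A B : Plk k F →₀ ℤ} {f g : Fˣ} (hf : A - n • B = dv k (f : F))
    (hA : mapDomain (plEquiv t s hs) A = A) (hg : g ∈ divU k F n) (htg : mU t g = g)
    (hd : ∀ P, A P ≠ 0 → ord P (g : F) = 0) {y : Additive kˣ} (hy : evd g A = n • y)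
    (hsy : aU s y = y) : e k n (f / mU t f) g = 0 := by
  classical
  obtain ⟨D, hD⟩ := exists_halfdiv hg
  have hn' : (n : ℤ) ≠ 0 := by exact_mod_cast hn
  have hb : ∀ P, ord P (g : F) = n * D P := fun P => by
    rw [← dv_apply, ← hD, Finsupp.smul_apply, nsmul_eq_mul]
  wlog hB : ∀ P, B P = 0 ∨ D P = 0 generalizing B f
  · obtain ⟨u, u0, hu⟩ := exists_ord_eq D.support B
    let U := Units.mk0 u u0
    have h1 : A - n • (B - dv k u) = dv k ((f * U ^ n : Fˣ) : F) := by
      ext P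
      have := DFunLike.congr_fun hf P
      simp only [Finsupp.sub_apply, Finsupp.smul_apply, nsmul_eq_mul, dv_apply, ou_mul, ou_pow,
        U, Units.val_mk0] at this ⊢
      rw [← this]
      ring
    have h2 := this h1 fun P => by
      by_cases hP : P ∈ D.support
      · exact Or.inl (by rw [Finsupp.sub_apply, dv_apply, hu P hP, sub_self])
      · exact Or.inr (notMem_support_iff.1 hP)
    have h3 : f * U ^ n / mU t (f * U ^ n) = f / mU t f * (U / mU t U) ^ n := by
      rw [map_mul, map_pow, div_pow, mul_div_mul_comm]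
    have h4 : (U / mU t U) ^ n ∈ powU F n := ⟨_, rfl⟩
    rwa [h3, e_mul_left hn g (mem_divU_of (dv_quot hs hf hA)) (powU_le n h4),
      e_powU_left hn h4 hg, add_zero] at h2
  have hAD : ∀ P, A P = 0 ∨ D P = 0 := fun P => or_iff_not_imp_left.2 fun h =>
    (mul_eq_zero.1 ((hb P).symm.trans (hd P h))).resolve_left hn'
  have hσ : mapDomain (plEquiv t s hs) D = D := smul_inj' hn (by
    rw [← mapDomain_smul, hD, ← dv_plEquiv, ← mU_val, htg])
  have hσB : ∀ P, mapDomain (plEquiv t s hs) B P = 0 ∨ D P = 0 := fun P => by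
    obtain ⟨P, rfl⟩ := (plEquiv t s hs).surjective P
    rw [← hσ, mapDomain_apply (plEquiv t s hs).injective, mapDomain_apply (plEquiv t s hs).injective]
    exact hB P
  have hfD : ∀ P, D P ≠ 0 → ord P (f : F) = 0 := fun P h => by
    rw [← dv_apply, ← hf, Finsupp.sub_apply, Finsupp.smul_apply, (hB P).resolve_right h,
      (hAD P).resolve_right h, smul_zero, sub_zero]
  have h1 := evd_semi hs hfD
  have h2 := evd_semi hs (f := g) (D := B) fun P h => by
    rw [hb, (hB P).resolve_left h, mul_zero]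
  rw [hσ] at h1
  rw [htg] at h2
  have h3 := e_evd (n := 1) one_ne_zero (f := f) (g := g) (A := A - n • B) (B := n • D)
    (by rw [one_smul, hf]) (by rw [one_smul, hD]) fun P => by
      by_cases h : D P = 0
      · exact Or.inr (by rw [Finsupp.smul_apply, h, smul_zero])
      · exact Or.inl (by rw [hf, dv_apply, hfD P h])
  rw [weil, map_sub, map_nsmul, map_nsmul, hy] at h3
  have h4 := hμ (evd f D + evd g B - y) (by
    rw [nsmul_sub, nsmul_add]
    linear_combination (norm := abel) -h3)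
  rw [e_evd hn (dv_quot hs hf hA) hD fun P => by
      by_cases h : D P = 0
      · exact Or.inr h
      · exact Or.inl (by
          rw [Finsupp.sub_apply, (hσB P).resolve_right h, (hB P).resolve_right h, sub_zero]),
    evd_div, map_sub, h1, h2]
  rw [map_sub, map_add, hsy] at h4
  linear_combination (norm := abel) -h4

theorem cls_fix {n : ℕ} (hn : (n : k) ≠ 0) {A B : Plk k F →₀ ℤ} {f : Fˣ}
    (hf : A - n • B = dv k (f : F)) (hA : mapDomain (plEquiv t s hs) A = A)
    (h : ∀ g ∈ divU k F n, e k n (f / mU t f) g = 0) :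
    mapDomain (plEquiv t s hs) B - B ∈ prn k F := by
  have h1 := dv_quot hs hf hA
  obtain ⟨u, hu⟩ := mem_powU.1 (nondeg hn (mem_divU_of h1) h)
  refine ⟨u, u.ne_zero, smul_inj' (n := n) (fun e => hn (by rw [e, Nat.cast_zero])) ?_⟩
  rw [h1, ← hu]
  ext P
  rw [dv_apply, ou_pow, Finsupp.smul_apply, nsmul_eq_mul, dv_apply]

end abs

variable {C K Ω K' : Type} [Field C] [Field K] [Field Ω] [Field K'] [Algebra C K]
  [Algebra C Ω] [Algebra C K'] [Algebra K K'] [Algebra Ω K'] [IsScalarTower C K K']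
  [IsScalarTower C Ω K'] [CFF C K] [CFF Ω K']

theorem Cst.val {P : Plk C K} {R : Plk Ω K'} (h : Cst P R) {z : K} {c : C} (hz : Val P z c) :
    Val R (algebraMap K K' z) (algebraMap C Ω c) := by
  unfold Val at *
  rw [← IsScalarTower.algebraMap_apply, IsScalarTower.algebraMap_apply C K K', ← map_sub]
  rcases mem_Mge.1 hz with h1 | h1
  · rw [h1, map_zero]
    exact zero_mem _
  · exact mem_Mge.2 (Or.inr (by rwa [h]))

/-- the cycle of a family of points, of degree zero -/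
def cyc {ι : Type} [Fintype ι] (Q : ι → Plk Ω K') (m : ι → ℤ) (R : Plk Ω K') : Plk Ω K' →₀ ℤ :=
  ∑ i, single (Q i) (m i) - single R (∑ i, m i)

theorem dg_cyc {ι : Type} [Fintype ι] (Q : ι → Plk Ω K') (m : ι → ℤ) (R : Plk Ω K') :
    dg (cyc Q m R) = 0 := by
  simp only [cyc, map_sub, map_sum, dg_sgl, sub_self]

/-- **the division points are fixed** -/
theorem weil_step [CharZero C] (h : P025H941.IsBC C K Ω K') {ι : Type} [Fintype ι]
    {φ : ι → K →ₐ[C] Ω} {Q : ι → Plk Ω K'} (hQ : ∀ i, Pt (φ i) (Q i)) (m : ι → ℤ) {P : Plk C K}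
    {R : Plk Ω K'} (hR : Cst P R) {n : ℕ} (hn : n ≠ 0) {s : Ω ≃ₐ[C] Ω} {t : K' ≃+* K'}
    (ht : Sm K s t) (hφ : ∀ i z, s (φ i z) = φ i z)
    (hy : ∀ g : K, g ≠ 0 → (∀ P : Plk C K, (n : ℤ) ∣ ord P g) →
      ∃ y : Ω, s y = y ∧ ∏ i, φ i g ^ m i = y ^ n)
    {B : Plk Ω K' →₀ ℤ} (hB : cyc Q m R - n • B ∈ prn Ω K') :
    mapDomain (plEquiv t s.toRingEquiv ht.cst) B - B ∈ prn Ω K' := by
  classical
  have : IsAlgClosed C := CFF.ac K
  have : CharZero Ω := charZero_of_injective_algebraMap (algebraMap C Ω).injective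
  obtain ⟨f, f0, hf⟩ := hB
  have hQ' : ∀ i, plEquiv t s.toRingEquiv ht.cst (Q i) = Q i := fun i => by
    have h1 := (hQ i).sm ht
    rw [show (s : Ω →ₐ[C] Ω).comp (φ i) = φ i from AlgHom.ext (hφ i)] at h1
    exact h1.eq h (hQ i)
  have hA : mapDomain (plEquiv t s.toRingEquiv ht.cst) (cyc Q m R) = cyc Q m R := by
    have := map_sub (mapDomain.addMonoidHom (plEquiv t s.toRingEquiv ht.cst))
      (∑ i, single (Q i) (m i)) (single R (∑ i, m i))
    rw [map_sum] at this
    simpa only [cyc, mapDomain.addMonoidHom_apply, mapDomain_single, hQ', hR.sm h ht] using this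
  have hq := mem_divU_of (dv_quot ht.cst (f := Units.mk0 f f0) hf hA)
  refine cls_fix ht.cst (Nat.cast_ne_zero.2 hn) (f := Units.mk0 f f0) hf hA fun g' hg' => ?_
  obtain ⟨g₀, g0, hg₀, z, z0, hz⟩ := h.to816.exists_eq_mul_pow hn g'.ne_zero hg'
  obtain ⟨a, ha⟩ := hg₀ P
  obtain ⟨π, π0, hπ⟩ := exists_unif P
  have p0 : (π ^ (-a)) ^ n ≠ 0 := pow_ne_zero _ (zpow_ne_zero _ π0)
  obtain ⟨g, hg⟩ : ∃ g, g = g₀ * (π ^ (-a)) ^ n := ⟨_, rfl⟩
  have g1 : g ≠ 0 := hg ▸ mul_ne_zero g0 p0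
  have g2 : ∀ P : Plk C K, (n : ℤ) ∣ ord P g := fun P => by
    rw [hg, ord_mul P g0 p0, ord_pow]
    exact dvd_add (hg₀ P) (dvd_mul_right _ _)
  have g3 : ord P g = 0 := by
    rw [hg, ord_mul P g0 p0, ord_pow, ord_zpow, hπ, ha]
    ring
  let G : K'ˣ := Units.mk0 (algebraMap K K' g) ((map_ne_zero _).2 g1)
  have hG : G ∈ divU Ω K' n := dvd_up h.to816.comm g2
  have π1 : algebraMap K K' π ≠ 0 := (map_ne_zero _).2 π0
  have e1 : g' = G * (Units.mk0 z z0 * Units.mk0 _ π1 ^ a) ^ n := by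
    ext
    simp only [G, hz, hg, Units.val_mul, Units.val_pow_eq_pow_val, Units.val_mk0, map_mul,
      map_pow, map_zpow₀, Units.val_zpow_eq_zpow_val, mul_pow, zpow_neg, inv_pow, map_inv₀]
    have := pow_ne_zero n (zpow_ne_zero a π1)
    field_simp
  have e2 : (Units.mk0 z z0 * Units.mk0 _ π1 ^ a) ^ n ∈ powU K' n := ⟨_, rfl⟩
  rw [e1, e_mul_right hn _ hG (powU_le n e2), e_powU_right hn hq e2, add_zero]
  obtain ⟨y, y1, y2⟩ := hy g g1 g2
  have φ0 : ∀ i, φ i g ≠ 0 := fun i => (map_ne_zero _).2 g1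
  have y0 : y ≠ 0 := fun e => Finset.prod_ne_zero_iff.2 (fun i _ => zpow_ne_zero (m i) (φ0 i))
    (by rw [y2, e, zero_pow hn])
  have v1 := val_vl g3.ge
  obtain ⟨c, hc⟩ := IsAlgClosed.exists_pow_nat_eq (vl P g) (Nat.pos_of_ne_zero hn)
  have c0 : algebraMap C Ω c ≠ 0 := (map_ne_zero _).2 fun e => v1.ne_zero g1 g3 (by
    rw [← hc, e, zero_pow hn])
  refine e_fix ht.cst hn (fun b hb => ?_) (f := Units.mk0 f f0) hf hA hG (Units.ext (ht.fix g))
    (fun S hS => ?_) (y := Additive.ofMul (Units.mk0 y y0) -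
      (∑ i, m i) • Additive.ofMul (Units.mk0 _ c0)) ?_ ?_
  · have h1 : ((b.toMul : Ωˣ) : Ω) ^ n = 1 := by
      rw [← Units.val_pow_eq_pow_val, ← toMul_nsmul, hb]
      rfl
    obtain ⟨b', hb'⟩ := minpoly.mem_range_of_degree_eq_one C _
      (IsAlgClosed.degree_eq_one_of_irreducible C (minpoly.irreducible
        (IsIntegral.of_pow (Nat.pos_of_ne_zero hn) (h1 ▸ isIntegral_one))))
    refine Additive.toMul.injective (Units.ext ?_)
    change s ((b.toMul : Ωˣ) : Ω) = _
    rw [← hb', s.commutes]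
  · by_contra h1
    have h2 : ∀ i, Q i ≠ S := fun i e => h1 (e ▸ (hQ i).ord g)
    have h3 : R ≠ S := fun e => h1 (e ▸ (hR g).trans g3)
    refine hS ?_
    rw [cyc, Finsupp.sub_apply, Finsupp.finset_sum_apply, single_eq_of_ne h3.symm, sub_zero]
    exact Finset.sum_eq_zero fun i _ => single_eq_of_ne (h2 i).symm
  · have h1 : ∀ i, lc (Q i) G = Additive.ofMul (Units.mk0 _ (φ0 i)) := fun i => lc_eq (hQ i g)
    have h2 : lc R G = Additive.ofMul (Units.mk0 _ c0 ^ n) := lc_eq (by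
      have := hR.val v1
      rwa [← hc, map_pow] at this)
    rw [cyc, map_sub, map_sum, evd_single, h2, nsmul_sub, ofMul_pow, ← natCast_zsmul,
      ← mul_zsmul, mul_comm, mul_zsmul, natCast_zsmul]
    congr 1
    simp only [evd_single, h1, ← ofMul_zpow, ← ofMul_prod, ← ofMul_pow]
    congr 1
    ext
    simpa using y2
  · rw [map_sub, map_zsmul, aU_ofMul, aU_ofMul]
    congr 3
    · exact Units.ext y1
    · exact Units.ext (s.commutes c)

end Vale.Agent.P022K.FA
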